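import Vale.Agent.P196.Full.Tiles.Config

/-!
# P196: the tower of grids of the subshift
-/

namespace Vale.Agent.P196.Full.Tiles

open Set

attribute [local irreducible] K lvl

/-- The width of the supertiles of level `m`. -/
noncomputable def width : ℕ → ℕ
  | 0 => 1
  | m + 1 => width m * (2 * lvl m)

theorem width_pos : ∀ m, 0 < width m
  | 0 => Nat.one_pos
  | m + 1 => Nat.mul_pos (width_pos m) (two_mul_lvl_pos m)

theorem two_pow_le_width : ∀ m, 2 ^ m ≤ width m
  | 0 => le_rfl
  | m + 1 => by
      have h2 : 2 ≤ 2 * lvl m := by
        have := six_le_two_mul_lvl m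
        omega
      rw [pow_succ, width]
      exact Nat.mul_le_mul (two_pow_le_width m) h2

/-- The configuration of each level above a point. -/
noncomputable def lev (hP : ParseGoal) : ∀ m, Pts → Cfg m
  | 0, x => Cfg.ofPts x
  | m + 1, x => (cut hP (lev hP m x)).2

/-- The corner of the supertile of level `m` with index `0`. -/
noncomputable def corner (hP : ParseGoal) : ℕ → Pts → ℤ × ℤ
  | 0, _ => 0
  | m + 1, x =>
      ((corner hP m x).1 + (width m : ℤ) * (cut hP (lev hP m x)).origin.1,
        (corner hP m x).2 + (width m : ℤ) * (cut hP (lev hP m x)).origin.2)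

theorem continuous_lev (hP : ParseGoal) : ∀ m, Continuous (lev hP m)
  | 0 => continuous_ofPts
  | m + 1 => continuous_snd.comp ((continuous_cut hP m).comp (continuous_lev hP m))

theorem isLocallyConstant_corner (hP : ParseGoal) : ∀ m, IsLocallyConstant (corner hP m)
  | 0 => IsLocallyConstant.const _
  | m + 1 =>
      (isLocallyConstant_corner hP m).comp₂
        (IsLocallyConstant.iff_continuous (fun x => (cut hP (lev hP m x)).1) |>.2
          (continuous_fst.comp ((continuous_cut hP m).comp (continuous_lev hP m))))
        fun o q => (o.1 + (width m : ℤ) * ((q.1 : ℕ) : ℤ), o.2 + (width m : ℤ) * ((q.2 : ℕ) : ℤ))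

/-- The configurations above a translated point are translates, by the same vectors as the
corners. -/
theorem lev_sh (hP : ParseGoal) (v : ℤ × ℤ) (x : Pts) : ∀ m, ∃ d : ℤ × ℤ,
    (∀ w, (lev hP m (sys.sh v x)).tiles w = (lev hP m x).tiles (w + d)) ∧
    (corner hP m (sys.sh v x)).1 + v.1 = (corner hP m x).1 + (width m : ℤ) * d.1 ∧
    (corner hP m (sys.sh v x)).2 + v.2 = (corner hP m x).2 + (width m : ℤ) * d.2
  | 0 => ⟨v, fun w => rfl, by simp [corner, width], by simp [corner, width]⟩
  | m + 1 => by
      obtain ⟨d, hd, c1, c2⟩ := lev_sh hP v x m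
      set c' := lev hP m (sys.sh v x)
      set c := lev hP m x
      set o' := (cut hP c').origin with ho'
      have hdec : Decomposes m c.tiles (o'.1 + d.1, o'.2 + d.2) (cut hP c').2.tiles := by
        intro w i j hi hj
        have := cut_decomposes hP c' w i j hi hj
        rw [hd] at this
        rw [← this]
        congr 1
        ext <;> simp [← ho'] <;> ring
      obtain ⟨e, he, hy⟩ := decomposes_unique hP c (cut_decomposes hP c) (cut hP c).2.ok hdec
        (cut hP c').2.ok
      simp only [Prod.ext_iff] at he
      refine ⟨e, fun w => hy w, ?_, ?_⟩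
      · simp only [corner, width, Nat.cast_mul, Nat.cast_ofNat]
        linear_combination c1 + (width m : ℤ) * he.1
      · simp only [corner, width, Nat.cast_mul, Nat.cast_ofNat]
        linear_combination c2 + (width m : ℤ) * he.2

/-- The phases: the position of the origin inside the supertile containing it. -/
noncomputable def tower (hP : ParseGoal) : Tower sys where
  W := width
  W_pos := width_pos
  W_dvd m := Dvd.intro _ rfl
  W_unbounded C := ⟨C, (Nat.lt_two_pow_self).le.trans (two_pow_le_width C)⟩
  phase m x := (((-(corner hP m x).1 : ℤ) : ZMod (width m)), ((-(corner hP m x).2 : ℤ) : ZMod (width m)))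
  isClopen_fiber m c :=
    ((isLocallyConstant_corner hP m).comp fun o : ℤ × ℤ =>
      (((-o.1 : ℤ) : ZMod (width m)), ((-o.2 : ℤ) : ZMod (width m)))).isClopen_fiber c
  phase_sh m v x := by
    obtain ⟨d, -, c1, c2⟩ := lev_sh hP v x m
    have e1 := congrArg (Int.cast : ℤ → ZMod (width m)) c1
    have e2 := congrArg (Int.cast : ℤ → ZMod (width m)) c2
    push_cast [ZMod.natCast_self, zero_mul, add_zero] at e1 e2
    refine Prod.ext ?_ ?_
    · push_cast [Prod.fst_add]
      linear_combination -e1
    · push_cast [Prod.snd_add]
      linear_combination -e2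
  phase_cast m x := by
    refine Prod.ext ?_ ?_
    · rw [ZMod.cast_intCast (Dvd.intro _ rfl : width m ∣ width (m + 1))]
      simp [corner]
    · show (((-(corner hP (m + 1) x).2 : ℤ) : ZMod (width (m + 1))).cast : ZMod (width m)) = _
      rw [ZMod.cast_intCast (Dvd.intro _ rfl : width m ∣ width (m + 1))]
      simp [corner]

/-- The hierarchy above a point. -/
noncomputable def hierarchy (hP : ParseGoal) (x : Pts) : Hierarchy where
  x m := (lev hP m x).tiles
  o m := (cut hP (lev hP m x)).origin
  ok m := (lev hP m x).ok
  matching m := (lev hP m x).matching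
  dec m := cut_decomposes hP (lev hP m x)

@[simp] theorem hierarchy_x_zero (hP : ParseGoal) (x : Pts) :
    (hierarchy hP x).x 0 = tilesOf x := rfl

end Vale.Agent.P196.Full.Tiles
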