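import Vale.Agent.P196.Full.Tiles.Tower
import Vale.Agent.P196.Full.Tiles.Equations.Main

/-!
# P196: the subshift of tiles is nonempty and minimal

A point is built from nested seeds; every generated tile occurs in every point, as its seed is a
child of every tile.
-/

namespace Vale.Agent.P196.Full.Tiles

attribute [local irreducible] K lvl

/-- The cells of level `0` of a tile of level `m`, cut from the top. -/
noncomputable def cells : ℕ → Tile → ℕ → ℕ → Tile
  | 0, P => fun _ _ => P
  | m + 1, P => fun i j =>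
      cells m (child forb (lvl m) P (i / width m) (j / width m)) (i % width m) (j % width m)

theorem div_lt_of_lt_width {m i : ℕ} (hi : i < width (m + 1)) : i / width m < 2 * lvl m := by
  rw [Nat.div_lt_iff_lt_mul (width_pos m), mul_comm]
  exact hi

theorem generated_cells : ∀ (m : ℕ) {P : Tile}, Generated forb m P → ∀ i j, i < width m →
    j < width m → Generated forb 0 (cells m P i j) := by
  intro m
  induction m with
  | zero => exact fun h _ _ _ _ => h
  | succ m ih =>
    intro P h i j hi hj
    exact ih (.step m P _ _ h (div_lt_of_lt_width hi) (div_lt_of_lt_width hj)) _ _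
      (Nat.mod_lt _ (width_pos m)) (Nat.mod_lt _ (width_pos m))

theorem hasGeom_cell (m : ℕ) (P : Tile) {i j : ℕ} (hi : i < 2 * lvl m) (hj : j < 2 * lvl m) :
    HasGeom m (child forb (lvl m) P i j) :=
  ⟨i, j, hi, hj, rfl, rfl, rfl, rfl⟩

theorem last_div_mod (m : ℕ) :
    (width (m + 1) - 1) / width m = 2 * lvl m - 1 ∧
      (width (m + 1) - 1) % width m = width m - 1 := by
  have h1 := width_pos m
  have h2 := two_mul_lvl_pos m
  have e : width (m + 1) - 1 = (width m - 1) + width m * (2 * lvl m - 1) := by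
    rw [width, Nat.mul_sub, mul_one]
    have : width m * 1 ≤ width m * (2 * lvl m) := Nat.mul_le_mul_left _ h2
    omega
  rw [e, Nat.add_mul_div_left _ _ h1, Nat.div_eq_of_lt (by omega), zero_add,
    Nat.add_mul_mod_self_left, Nat.mod_eq_of_lt (by omega)]
  exact ⟨rfl, rfl⟩

/-- Supertiles of matching tiles match along the common side. -/
theorem cells_cross : ∀ (m : ℕ) {T T' : Tile}, HasGeom m T → HasGeom m T' →
    (T.r = T'.l → ∀ j < width m, (cells m T (width m - 1) j).r = (cells m T' 0 j).l) ∧
    (T.u = T'.d → ∀ i < width m, (cells m T i (width m - 1)).u = (cells m T' i 0).d) := by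
  intro m
  induction m with
  | zero => exact fun _ _ => ⟨fun e _ _ => e, fun e _ _ => e⟩
  | succ m ih =>
    intro T T' hT hT'
    obtain ⟨e1, e2⟩ := last_div_mod m
    have hl : 2 * lvl m - 1 < 2 * lvl m := by
      have := two_mul_lvl_pos m
      omega
    have h0 := two_mul_lvl_pos m
    refine ⟨fun e j hj => ?_, fun e i hi => ?_⟩
    · have hJ := div_lt_of_lt_width hj
      simp only [cells, e1, e2, Nat.zero_div, Nat.zero_mod]
      exact (ih (hasGeom_cell m T hl hJ) (hasGeom_cell m T' h0 hJ)).1
        ((crossGoal m T T' hT hT').1 e _ hJ) _ (Nat.mod_lt _ (width_pos m))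
    · have hI := div_lt_of_lt_width hi
      simp only [cells, e1, e2, Nat.zero_div, Nat.zero_mod]
      exact (ih (hasGeom_cell m T hI hl) (hasGeom_cell m T' hI h0)).2
        ((crossGoal m T T' hT hT').2 e _ hI) _ (Nat.mod_lt _ (width_pos m))

theorem succ_div_mod {W i : ℕ} (hW : 0 < W) :
    (i % W + 1 < W ∧ (i + 1) / W = i / W ∧ (i + 1) % W = i % W + 1) ∨
      (i % W = W - 1 ∧ (i + 1) / W = i / W + 1 ∧ (i + 1) % W = 0) := by
  have h := Nat.div_add_mod i W
  have hlt := Nat.mod_lt i hW
  by_cases h1 : i % W + 1 < W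
  · have e : i + 1 = (i % W + 1) + W * (i / W) := by omega
    refine .inl ⟨h1, ?_, ?_⟩
    · rw [e, Nat.add_mul_div_left _ _ hW, Nat.div_eq_of_lt h1, zero_add]
    · rw [e, Nat.add_mul_mod_self_left, Nat.mod_eq_of_lt h1]
  · have e : i + 1 = W * (i / W + 1) := by rw [Nat.mul_add, mul_one]; omega
    exact .inr ⟨by omega, by rw [e, Nat.mul_div_cancel_left _ hW],
      by rw [e, Nat.mul_mod_right]⟩

/-- The cells inside a supertile match. -/
theorem cells_matches : ∀ (m : ℕ) {P : Tile}, HasGeom m P →
    (∀ i j, i + 1 < width m → j < width m → (cells m P i j).r = (cells m P (i + 1) j).l) ∧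
    (∀ i j, i < width m → j + 1 < width m → (cells m P i j).u = (cells m P i (j + 1)).d) := by
  intro m
  induction m with
  | zero => exact fun _ => ⟨fun i j h _ => absurd h (by simp [width]),
      fun i j _ h => absurd h (by simp [width])⟩
  | succ m ih =>
    intro P hP
    refine ⟨fun i j hi hj => ?_, fun i j hi hj => ?_⟩
    · have hI := div_lt_of_lt_width hi
      have hJ := div_lt_of_lt_width hj
      have hI' : i / width m < 2 * lvl m := div_lt_of_lt_width (by omega)
      rcases succ_div_mod (i := i) (width_pos m) with ⟨h1, e1, e2⟩ | ⟨h1, e1, e2⟩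
      · simp only [cells, e1, e2]
        exact (ih (hasGeom_cell m P hI' hJ)).1 _ _ h1 (Nat.mod_lt _ (width_pos m))
      · rw [e1] at hI
        simp only [cells, e1, e2, h1]
        exact (cells_cross m (hasGeom_cell m P hI' hJ) (hasGeom_cell m P hI hJ)).1 rfl _
          (Nat.mod_lt _ (width_pos m))
    · have hI := div_lt_of_lt_width hi
      have hJ := div_lt_of_lt_width hj
      have hJ' : j / width m < 2 * lvl m := div_lt_of_lt_width (by omega)
      rcases succ_div_mod (i := j) (width_pos m) with ⟨h1, e1, e2⟩ | ⟨h1, e1, e2⟩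
      · simp only [cells, e1, e2]
        exact (ih (hasGeom_cell m P hI hJ')).2 _ _ (Nat.mod_lt _ (width_pos m)) h1
      · rw [e1] at hJ
        simp only [cells, e1, e2, h1]
        exact (cells_cross m (hasGeom_cell m P hI hJ') (hasGeom_cell m P hI hJ)).2 rfl _
          (Nat.mod_lt _ (width_pos m))

/-- The place of the origin inside the nested seeds. -/
noncomputable def seedPos : ℕ → ℕ
  | 0 => 0
  | m + 1 => seedPos m + 5 * width m

theorem seedPos_bounds : ∀ m, m ≤ seedPos m ∧ seedPos m + 2 ^ m ≤ width m := by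
  intro m
  induction m with
  | zero => simp [seedPos, width]
  | succ m ih =>
    have h1 := width_pos m
    have h2 := lvl_ge m
    obtain ⟨hK, -⟩ := K_large
    have : width m * 8 ≤ width m * (2 * lvl m) := Nat.mul_le_mul_left _ (by omega)
    rw [seedPos, width, pow_succ]
    omega

/-- The nested seeds at a position. -/
noncomputable def seedTile (m : ℕ) (z : ℤ × ℤ) : Tile :=
  cells m (seed (lvl m)) ((seedPos m : ℤ) + z.1).toNat ((seedPos m : ℤ) + z.2).toNat

theorem seedTile_range {m : ℕ} {a : ℤ} (ha : a.natAbs ≤ m) :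
    ((seedPos m : ℤ) + a).toNat < width m ∧ 0 ≤ (seedPos m : ℤ) + a := by
  obtain ⟨h1, h2⟩ := seedPos_bounds m
  have := Nat.lt_two_pow_self (n := m)
  omega

theorem hasGeom_seed (m : ℕ) : HasGeom m (seed (lvl m)) :=
  Generated.hasGeom (F := forb) (.base m)

theorem seedTile_succ {m : ℕ} {z : ℤ × ℤ} (h1 : z.1.natAbs ≤ m) (h2 : z.2.natAbs ≤ m) :
    seedTile (m + 1) z = seedTile m z := by
  obtain ⟨a1, a2⟩ := seedTile_range h1
  obtain ⟨b1, b2⟩ := seedTile_range h2
  have e : ∀ a : ℤ, 0 ≤ (seedPos m : ℤ) + a →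
      ((seedPos (m + 1) : ℤ) + a).toNat = ((seedPos m : ℤ) + a).toNat + width m * 5 := by
    intro a ha
    rw [seedPos]
    push_cast
    omega
  simp only [seedTile, cells, e _ a2, e _ b2, Nat.add_mul_div_left _ _ (width_pos m),
    Nat.div_eq_of_lt a1, Nat.div_eq_of_lt b1, Nat.add_mul_mod_self_left, Nat.mod_eq_of_lt a1,
    Nat.mod_eq_of_lt b1, zero_add, seedGoal m _ (hasGeom_seed (m + 1))]

theorem seedTile_stable {m : ℕ} {z : ℤ × ℤ} (h1 : z.1.natAbs ≤ m) (h2 : z.2.natAbs ≤ m) (k : ℕ) :
    seedTile (m + k) z = seedTile m z := by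
  induction k with
  | zero => rfl
  | succ k ih => rw [← Nat.add_assoc, seedTile_succ (by omega) (by omega), ih]

/-- The subshift is nonempty. -/
theorem nonempty_pts : Nonempty Pts := by
  let N : ℤ × ℤ → ℕ := fun z => z.1.natAbs + z.2.natAbs
  have hgen : ∀ z, Generated forb 0 (seedTile (N z) z) := fun z =>
    generated_cells _ (.base _) _ _ (seedTile_range (Nat.le_add_right _ _)).1
      (seedTile_range (Nat.le_add_left _ _)).1
  have hst : ∀ z m, N z ≤ m → seedTile (N z) z = seedTile m z := by
    intro z m hm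
    obtain ⟨k, rfl⟩ := Nat.exists_eq_add_of_le hm
    exact (seedTile_stable (Nat.le_add_right _ _) (Nat.le_add_left _ _) k).symm
  refine ⟨⟨fun z => ⟨seedTile (N z) z, hgen z⟩, fun z => ?_, fun z => ?_⟩⟩
  · show (seedTile (N z) z).r = (seedTile (N (z + (1, 0))) (z + (1, 0))).l
    have hN : N (z + (1, 0)) ≤ N z + 1 := by simp only [N, Prod.fst_add, Prod.snd_add]; omega
    rw [hst z (N z + 1) (Nat.le_succ _), hst _ _ hN]
    obtain ⟨a1, a2⟩ := seedTile_range (m := N z + 1) (a := z.1) (by simp only [N]; omega)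
    obtain ⟨b1, b2⟩ := seedTile_range (m := N z + 1) (a := z.2) (by simp only [N]; omega)
    obtain ⟨c1, c2⟩ := seedTile_range (m := N z + 1) (a := z.1 + 1) (by simp only [N]; omega)
    simp only [seedTile, Prod.fst_add, Prod.snd_add, add_zero]
    rw [show ((seedPos (N z + 1) : ℤ) + (z.1 + 1)).toNat =
      ((seedPos (N z + 1) : ℤ) + z.1).toNat + 1 by omega]
    exact (cells_matches _ (hasGeom_seed _)).1 _ _ (by omega) b1
  · show (seedTile (N z) z).u = (seedTile (N (z + (0, 1))) (z + (0, 1))).d
    have hN : N (z + (0, 1)) ≤ N z + 1 := by simp only [N, Prod.fst_add, Prod.snd_add]; omega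
    rw [hst z (N z + 1) (Nat.le_succ _), hst _ _ hN]
    obtain ⟨a1, a2⟩ := seedTile_range (m := N z + 1) (a := z.1) (by simp only [N]; omega)
    obtain ⟨b1, b2⟩ := seedTile_range (m := N z + 1) (a := z.2) (by simp only [N]; omega)
    obtain ⟨c1, c2⟩ := seedTile_range (m := N z + 1) (a := z.2 + 1) (by simp only [N]; omega)
    simp only [seedTile, Prod.fst_add, Prod.snd_add, add_zero]
    rw [show ((seedPos (N z + 1) : ℤ) + (z.2 + 1)).toNat =
      ((seedPos (N z + 1) : ℤ) + z.2).toNat + 1 by omega]
    exact (cells_matches _ (hasGeom_seed _)).2 _ _ a1 (by omega)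

variable (hP : ParseGoal)

/-- Every generated tile of level `n` occurs in every configuration of level `n` above a point. -/
theorem exists_lev_eq {n : ℕ} {P : Tile} (h : Generated forb n P) (x : Pts) :
    ∃ w, (lev hP n x).tiles w = P := by
  induction h with
  | base s =>
    have h5 : 5 < 2 * lvl s := by
      have := six_le_two_mul_lvl s
      omega
    exact ⟨_, (cut_decomposes hP (lev hP s x) 0 5 5 h5 h5).trans
      (seedGoal s _ (OK.hasGeom ((cut hP (lev hP s x)).2.ok 0)))⟩
  | step s T i j _ hi hj ih =>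
    obtain ⟨w, hw⟩ := ih
    refine ⟨_, (cut_decomposes hP (lev hP s x) w i j hi hj).trans ?_⟩
    rw [← hw]
    rfl

/-- The descendants of a tile above a point lie in one square above that point. -/
theorem exists_desc_eq (x : Pts) : ∀ (t s : ℕ) (w : ℤ × ℤ), ∃ b : ℤ × ℤ, ∀ i j, i < side s t →
    j < side s t → (lev hP s x).tiles (b + ((i : ℤ), (j : ℤ))) =
      desc s t ((lev hP (s + t) x).tiles w) i j := by
  intro t
  induction t with
  | zero =>
    intro s w
    refine ⟨w, fun i j hi hj => ?_⟩
    simp only [side] at hi hj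
    obtain rfl : i = 0 := by omega
    obtain rfl : j = 0 := by omega
    simp [desc, Prod.mk_zero_zero]
  | succ t ih =>
    intro s w
    obtain ⟨b, hb⟩ := ih (s + 1) w
    rw [Nat.succ_add_eq_add_succ] at hb
    set o := (cut hP (lev hP s x)).origin with ho
    refine ⟨(o.1 + 2 * (lvl s : ℤ) * b.1, o.2 + 2 * (lvl s : ℤ) * b.2), fun i j hi hj => ?_⟩
    simp only [side] at hi hj
    have hq : ∀ i < 2 * lvl s * side (s + 1) t, i / (2 * lvl s) < side (s + 1) t := fun i hi => by
      rwa [Nat.div_lt_iff_lt_mul (two_mul_lvl_pos s), mul_comm]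
    have := cut_decomposes hP (lev hP s x)
      (b + (((i / (2 * lvl s) : ℕ) : ℤ), ((j / (2 * lvl s) : ℕ) : ℤ))) _ _
      (Nat.mod_lt i (two_mul_lvl_pos s)) (Nat.mod_lt j (two_mul_lvl_pos s))
    simp only [desc]
    rw [← hb _ _ (hq i hi) (hq j hj)]
    refine Eq.trans ?_ this
    congr 1
    have e : ∀ i : ℕ, ((i : ℕ) : ℤ) = 2 * (lvl s : ℤ) * ((i / (2 * lvl s) : ℕ) : ℤ) +
        ((i % (2 * lvl s) : ℕ) : ℤ) := fun i => by
      exact_mod_cast (Nat.div_add_mod i (2 * lvl s)).symm
    refine Prod.ext ?_ ?_ <;> simp only [← ho, Prod.fst_add, Prod.snd_add]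
    · linear_combination e i
    · linear_combination e j

/-- Equal tiles of level `s` show equal patterns of level `0`. -/
theorem tiles_congr : ∀ (s : ℕ) {x y : Pts} {w w' : ℤ × ℤ},
    (lev hP s x).tiles w = (lev hP s y).tiles w' → ∀ i j, i < width s → j < width s →
      tilesOf x ((corner hP s x).1 + width s * w.1 + i, (corner hP s x).2 + width s * w.2 + j) =
        tilesOf y ((corner hP s y).1 + width s * w'.1 + i,
          (corner hP s y).2 + width s * w'.2 + j) := by
  intro s
  induction s with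
  | zero =>
    intro x y w w' h i j hi hj
    simp only [width] at hi hj
    obtain rfl : i = 0 := by omega
    obtain rfl : j = 0 := by omega
    simpa [corner, width, lev] using h
  | succ s ih =>
    intro x y w w' h i j hi hj
    have hI := div_lt_of_lt_width hi
    have hJ := div_lt_of_lt_width hj
    have hx := cut_decomposes hP (lev hP s x) w _ _ hI hJ
    have hy := cut_decomposes hP (lev hP s y) w' _ _ hI hJ
    have := ih (hx.trans ((congrArg (fun T => child forb (lvl s) T _ _) h).trans hy.symm))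
      (i % width s) (j % width s) (Nat.mod_lt _ (width_pos s)) (Nat.mod_lt _ (width_pos s))
    have e : ∀ i : ℕ, ((i : ℕ) : ℤ) = (width s : ℤ) * ((i / width s : ℕ) : ℤ) +
        ((i % width s : ℕ) : ℤ) := fun i => by
      exact_mod_cast (Nat.div_add_mod i (width s)).symm
    convert this using 2 <;> refine Prod.ext ?_ ?_ <;>
      simp only [corner, width, Nat.cast_mul, Nat.cast_ofNat] <;>
      first
        | linear_combination e i
        | linear_combination e j

/-- A coordinate of a box lies in one of two consecutive supertiles. -/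
theorem exists_two_cells {W : ℕ} {r c z : ℤ} (hr : 2 * r < W) (hz : z.natAbs ≤ r) :
    ∃ a q : ℕ, a < 2 ∧ q < W ∧ z = c + W * ((-r - c) / W + a) + q := by
  have hW : (0 : ℤ) < W := by omega
  have h0 := Int.emod_add_mul_ediv (-r - c) W
  have h1 := Int.emod_nonneg (-r - c) hW.ne'
  have h2 := Int.emod_lt_of_pos (-r - c) hW
  by_cases h : z - c - W * ((-r - c) / W) < W
  · exact ⟨0, (z - c - W * ((-r - c) / W)).toNat, by omega, by omega,
      by rw [Int.toNat_of_nonneg (by omega)]; push_cast; ring⟩
  · exact ⟨1, (z - c - W * ((-r - c) / W) - W).toNat, by omega, by omega,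
      by rw [Int.toNat_of_nonneg (by omega)]; push_cast; ring⟩

include hP in
/-- The subshift is minimal. -/
theorem isMinimal (hO : OccursGoal) : sys.IsMinimal := by
  classical
  rintro U hU ⟨x₀, hx₀⟩ x
  obtain ⟨V, hV, rfl⟩ := isOpen_induced_iff.1 hU
  obtain ⟨I, u, hu, hsub⟩ := isOpen_pi_iff.1 hV x₀.1 hx₀
  set r := I.sup fun z : ℤ × ℤ => max z.1.natAbs z.2.natAbs with hr
  set s := 2 * r + 1 with hs
  have hsW : 2 * r < width s := by
    have := Nat.lt_two_pow_self (n := s)
    have := two_pow_le_width s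
    omega
  set c := corner hP s x₀ with hc
  obtain ⟨t, P, i, j, hPgen, hi, hj, heq⟩ := hO (hierarchy hP x₀) s
    ((-(r : ℤ) - c.1) / width s, (-(r : ℤ) - c.2) / width s)
  obtain ⟨w, hw⟩ := exists_lev_eq hP hPgen x
  obtain ⟨b, hb⟩ := exists_desc_eq hP x t s w
  rw [hw] at hb
  refine ⟨((corner hP s x).1 + width s * (b.1 + i) -
      (c.1 + width s * ((-(r : ℤ) - c.1) / width s)),
    (corner hP s x).2 + width s * (b.2 + j) -
      (c.2 + width s * ((-(r : ℤ) - c.2) / width s))), ?_⟩
  refine hsub fun z hz => ?_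
  have hle := Finset.le_sup (f := fun z : ℤ × ℤ => max z.1.natAbs z.2.natAbs) hz
  rw [← hr] at hle
  obtain ⟨a₁, q₁, ha₁, hq₁, e₁⟩ := exists_two_cells (W := width s) (r := r) (c := c.1) (z := z.1)
    (by exact_mod_cast hsW) (by exact_mod_cast le_trans (le_max_left _ _) hle)
  obtain ⟨a₂, q₂, ha₂, hq₂, e₂⟩ := exists_two_cells (W := width s) (r := r) (c := c.2) (z := z.2)
    (by exact_mod_cast hsW) (by exact_mod_cast le_trans (le_max_right _ _) hle)
  have key := tiles_congr hP s
    ((hb (i + a₁) (j + a₂) (by omega) (by omega)).trans (heq a₁ a₂ ha₁ ha₂)) q₁ q₂ hq₁ hq₂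
  rw [← hc] at key
  have hz0 : z = (c.1 + width s * ((-(r : ℤ) - c.1) / width s + a₁) + q₁,
      c.2 + width s * ((-(r : ℤ) - c.2) / width s + a₂) + q₂) := Prod.ext e₁ e₂
  have e : (sys.sh ((corner hP s x).1 + width s * (b.1 + i) -
      (c.1 + width s * ((-(r : ℤ) - c.1) / width s)),
    (corner hP s x).2 + width s * (b.2 + j) -
      (c.2 + width s * ((-(r : ℤ) - c.2) / width s))) x).1 z = x₀.1 z := by
    refine Subtype.ext ?_
    show tilesOf x (z + _) = tilesOf x₀ z
    simp only [Prod.fst_add, Prod.snd_add] at key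
    rw [← hz0] at key
    rw [← key]
    congr 1
    refine Prod.ext ?_ ?_ <;> simp only [Prod.fst_add, Prod.snd_add] <;> push_cast
    · linear_combination e₁
    · linear_combination e₂
  rw [e]
  exact (hu z hz).2

end Vale.Agent.P196.Full.Tiles
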