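import Vale.Agent.P196.Full.Amenable.Local
import Vale.Agent.P196.Full.Tiles.Tower
import Vale.Agent.P196.Full.Tiles.Sparse.Edge

/-!
# P196: the tower of the subshift is sparse

Near a fault line the tiles of level `m` are children of border tiles of level `m + 1`, so a window
is determined by the fine phase and the half of the coarse side, except near the middle of the
coarse side, where it also depends on the signatures of the two parents.
-/

namespace Vale.Agent.P196.Full.Tiles

open Tower (cdist)

attribute [local irreducible] K lvl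

variable (hP : ParseGoal)

/-- The tile of level `n` containing the origin. -/
noncomputable def top (n : ℕ) (y : Pts) : Tile :=
  (lev hP n y).tiles (-(corner hP n y).1 / (width n : ℤ), -(corner hP n y).2 / (width n : ℤ))

theorem top_zero (y : Pts) : top hP 0 y = tilesOf y 0 := by
  simp only [top, corner, width, lev, Cfg.tiles_ofPts, Prod.fst_zero, Prod.snd_zero, neg_zero,
    Nat.cast_one, Int.ediv_one]
  rfl

theorem val_phase (n : ℕ) (y : Pts) :
    (((((tower hP).phase n y).1).val : ℕ) : ℤ) = -(corner hP n y).1 % (width n : ℤ) ∧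
      (((((tower hP).phase n y).2).val : ℕ) : ℤ) = -(corner hP n y).2 % (width n : ℤ) := by
  have : NeZero ((tower hP).W n) := ⟨(width_pos n).ne'⟩
  exact ⟨ZMod.val_intCast _, ZMod.val_intCast _⟩

theorem ediv_split {c W M o : ℤ} {a : ℕ} {w : ℕ} (hW : W = (w : ℤ)) (hw : 0 < w)
    (ha : (a : ℤ) = c % (W * (2 * M))) :
    (c + W * o) / W = o + 2 * M * (c / (W * (2 * M))) + ((a / w : ℕ) : ℤ) := by
  have h := Int.emod_add_mul_ediv c (W * (2 * M))
  rw [← ha] at h
  have e : c + W * o = (a : ℤ) + W * (o + 2 * M * (c / (W * (2 * M)))) := by linarith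
  rw [e, Int.add_mul_ediv_left _ _ (by rw [hW]; exact_mod_cast hw.ne'), hW, Int.natCast_div]
  ring

theorem top_succ (n : ℕ) (y : Pts) :
    top hP n y = child forb (lvl n) (top hP (n + 1) y)
      ((((tower hP).phase (n + 1) y).1).val / width n)
      ((((tower hP).phase (n + 1) y).2).val / width n) := by
  obtain ⟨v1, v2⟩ := val_phase hP (n + 1) y
  have hb : ∀ a : ZMod (width (n + 1)), a.val / width n < 2 * lvl n := by
    have : NeZero (width (n + 1)) := ⟨(width_pos _).ne'⟩
    intro (a : ZMod (width (n + 1)))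
    rw [Nat.div_lt_iff_lt_mul (width_pos n), mul_comm]
    exact ZMod.val_lt a
  have hd := cut_decomposes hP (lev hP n y)
    (-(corner hP (n + 1) y).1 / (width (n + 1) : ℤ), -(corner hP (n + 1) y).2 / (width (n + 1) : ℤ))
    _ _ (hb ((tower hP).phase (n + 1) y).1) (hb ((tower hP).phase (n + 1) y).2)
  refine Eq.trans ?_ hd
  simp only [top]
  congr 1
  have hW : ((width (n + 1) : ℕ) : ℤ) = (width n : ℤ) * (2 * (lvl n : ℤ)) := by
    simp [width]
  rw [hW] at v1 v2 ⊢
  refine Prod.ext ?_ ?_
  · show -(corner hP n y).1 / (width n : ℤ) = _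
    rw [show -(corner hP n y).1 = -(corner hP (n + 1) y).1 +
      (width n : ℤ) * (cut hP (lev hP n y)).origin.1 by simp [corner]]
    exact ediv_split rfl (width_pos n) v1
  · show -(corner hP n y).2 / (width n : ℤ) = _
    rw [show -(corner hP n y).2 = -(corner hP (n + 1) y).2 +
      (width n : ℤ) * (cut hP (lev hP n y)).origin.2 by simp [corner]]
    exact ediv_split rfl (width_pos n) v2

/-- The tile at the origin is determined by the phase and the tile containing it. -/
theorem tilesOf_congr : ∀ (n : ℕ) (y y' : Pts), (tower hP).phase n y = (tower hP).phase n y' →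
    top hP n y = top hP n y' → tilesOf y 0 = tilesOf y' 0 := by
  intro n
  induction n with
  | zero => intro y y' _ h; rwa [top_zero, top_zero] at h
  | succ n ih =>
      intro y y' hp h
      refine ih y y' ?_ ?_
      · rw [← (tower hP).phase_cast n y, hp, (tower hP).phase_cast n y']
      · rw [top_succ hP n y, top_succ hP n y', hp, h]

theorem ediv_add_of_bounds {c W v : ℤ} (hW : 0 < W) (h0 : 0 ≤ c % W + v) (h1 : c % W + v < W) :
    (c + v) / W = c / W := by
  have h := Int.emod_add_mul_ediv c W
  rw [show c + v = (c % W + v) + W * (c / W) by linarith, Int.add_mul_ediv_left _ _ hW.ne',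
    Int.ediv_eq_zero_of_lt h0 h1, zero_add]

/-- Translations inside a supertile do not change it. -/
theorem top_same (n : ℕ) (v : Lat) (x : Pts)
    (h1 : 0 ≤ ((((tower hP).phase n x).1).val : ℤ) + v.1 ∧
      ((((tower hP).phase n x).1).val : ℤ) + v.1 < width n)
    (h2 : 0 ≤ ((((tower hP).phase n x).2).val : ℤ) + v.2 ∧
      ((((tower hP).phase n x).2).val : ℤ) + v.2 < width n) :
    top hP n (sys.sh v x) = top hP n x := by
  obtain ⟨v1, v2⟩ := val_phase hP n x
  rw [v1] at h1
  rw [v2] at h2
  obtain ⟨d, hd, c1, c2⟩ := lev_sh hP v x n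
  have hW : (0 : ℤ) < width n := by exact_mod_cast width_pos n
  simp only [top, hd]
  congr 1
  refine Prod.ext ?_ ?_ <;> simp only [Prod.fst_add, Prod.snd_add]
  · rw [show -(corner hP n (sys.sh v x)).1 =
      (-(corner hP n x).1 + v.1) + (width n : ℤ) * -d.1 by linarith,
      Int.add_mul_ediv_left _ _ hW.ne', ediv_add_of_bounds hW h1.1 h1.2, neg_add_cancel_right]
  · rw [show -(corner hP n (sys.sh v x)).2 =
      (-(corner hP n x).2 + v.2) + (width n : ℤ) * -d.2 by linarith,
      Int.add_mul_ediv_left _ _ hW.ne', ediv_add_of_bounds hW h2.1 h2.2, neg_add_cancel_right]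

variable (ax : Bool)

theorem top_succ_ax (n : ℕ) (y : Pts) :
    top hP n y = cchild ax forb (lvl n) (top hP (n + 1) y)
      (((tower hP).along ax (n + 1) y).val / width n)
      (((tower hP).across ax (n + 1) y).val / width n) := by
  cases ax <;> exact top_succ hP n y

theorem phase_congr_ax (n : ℕ) (y y' : Pts) (h : (tower hP).along ax n y = (tower hP).along ax n y')
    (h' : (tower hP).across ax n y = (tower hP).across ax n y') :
    (tower hP).phase n y = (tower hP).phase n y' := by
  cases ax
  · exact Prod.ext h h'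
  · exact Prod.ext h' h

theorem top_same_ax (n : ℕ) (u v : ℤ) (x : Pts)
    (h1 : 0 ≤ (((tower hP).along ax n x).val : ℤ) + u ∧
      (((tower hP).along ax n x).val : ℤ) + u < width n)
    (h2 : 0 ≤ (((tower hP).across ax n x).val : ℤ) + v ∧
      (((tower hP).across ax n x).val : ℤ) + v < width n) :
    top hP n (sys.sh (axisVec ax u v) x) = top hP n x := by
  cases ax
  · exact top_same hP n _ x h1 h2
  · exact top_same hP n _ x h2 h1

/-- The residue of a small integer. -/
theorem val_small {N : ℕ} (hN : 0 < N) (v : ℤ) (hv : v.natAbs < N) :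
    (v : ZMod N).val = if 0 ≤ v then v.natAbs else N - v.natAbs := by
  have : NeZero N := ⟨hN.ne'⟩
  have h := ZMod.val_intCast (n := N) v
  split_ifs with h0
  · rw [Int.emod_eq_of_lt h0 (by omega)] at h
    omega
  · rw [show v = ((v + N) : ℤ) + (N : ℤ) * (-1) by ring, Int.add_mul_emod_self_left,
      Int.emod_eq_of_lt (by omega) (by omega)] at h
    rw [show v + N + (N : ℤ) * (-1) = v by ring] at h
    omega

theorem val_add_of_bounds {N : ℕ} (hN : 0 < N) (a : ZMod N) (u : ℤ) (h0 : 0 ≤ (a.val : ℤ) + u)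
    (h1 : (a.val : ℤ) + u < N) : ((a + (u : ZMod N)).val : ℤ) = (a.val : ℤ) + u := by
  have : NeZero N := ⟨hN.ne'⟩
  have e : a + (u : ZMod N) = (((a.val : ℤ) + u : ℤ) : ZMod N) := by
    rw [Int.cast_add, Int.cast_natCast, ZMod.natCast_zmod_val]
  rw [e, ZMod.val_intCast, Int.emod_eq_of_lt h0 h1]

/-- The row of level `m` at height `v` over a fault line. -/
noncomputable def rowOf (m : ℕ) (v : ℤ) : ℕ :=
  (if 0 ≤ v then v.natAbs else width (m + 1) - v.natAbs) / width m

theorem width_succ (m : ℕ) : width (m + 1) = 2 * (lvl m * width m) := by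
  rw [width]; ring

theorem div_eq_bounds {a w i : ℕ} (hw : 0 < w) (h : i = a / w) : i * w ≤ a ∧ a < i * w + w := by
  subst h
  have := Nat.div_add_mod a w
  have := Nat.mod_lt a hw
  have := mul_comm w (a / w)
  constructor <;> omega

theorem lt_of_scaled {x y w : ℕ} (h : x * w < y * w) : x < y := Nat.lt_of_mul_lt_mul_right h

theorem row_near {w M k b v : ℕ} (hw : 0 < w) (hM : 4 * k ≤ M) (hk : 100 ≤ k)
    (hv : 4 * v ≤ M * w + 4 * w) :
    (b = v / w → b + k + 3 < M) ∧ (b = (2 * (M * w) - v) / w → M + k + 3 < b ∧ b < 2 * M ∨ v = 0) := by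
  have e1 : 4 * k * w ≤ M * w := Nat.mul_le_mul_right w hM
  have e2 : 100 * w ≤ k * w := Nat.mul_le_mul_right w hk
  rw [mul_assoc] at e1
  constructor <;> intro hb
  · obtain ⟨h1, h2⟩ := div_eq_bounds hw hb
    refine lt_of_scaled (w := w) ?_
    simp only [add_mul]
    omega
  · obtain ⟨h1, h2⟩ := div_eq_bounds hw hb
    rcases Nat.eq_zero_or_pos v with h0 | h0
    · exact .inr h0
    refine .inl ⟨lt_of_scaled (w := w) ?_, lt_of_scaled (w := w) ?_⟩ <;>
      simp only [add_mul, mul_assoc] <;> omega

/-- A point over a fault line at a controlled height, seen at level `m`. -/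
theorem level_tile (m : ℕ) {x : Pts} (hx : x ∈ (tower hP).fault ax) (u v : ℤ)
    (hv : 4 * v.natAbs ≤ lvl m * width m + 4 * width m) :
    ((tower hP).across ax (m + 1) (sys.sh (axisVec ax u v) x)).val / width m = rowOf m v ∧
    ∃ (G : Tile) (i' j' : ℕ), i' < 2 * lvl (m + 1) ∧ Near (lvl m) (lvl (m + 1)) j' (rowOf m v) ∧
      j' = (if 0 ≤ v then 0 else 2 * lvl (m + 1) - 1) ∧
      top hP (m + 1) (sys.sh (axisVec ax u v) x) =
        cchild ax forb (lvl (m + 1)) G i' j' := by
  obtain ⟨hK, -⟩ := K_large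
  have hM := lvl_ge m
  have hk : 100 ≤ K := by omega
  have hw := width_pos m
  have eW := width_succ m
  have e1 : 400 * width m ≤ lvl m * width m := Nat.mul_le_mul_right _ (by omega)
  have hval : ∀ n, m + 1 ≤ n → v.natAbs < width n →
      ((tower hP).across ax n (sys.sh (axisVec ax u v) x)).val =
        if 0 ≤ v then v.natAbs else width n - v.natAbs := by
    intro n _ hn
    rw [(tower hP).across_sh, vAcross_axisVec, hx n, zero_add]
    exact val_small (width_pos n) v hn
  have hv1 : v.natAbs < width (m + 1) := by omega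
  have h1 := hval (m + 1) le_rfl hv1
  refine ⟨by rw [h1]; rfl, top hP (m + 2) (sys.sh (axisVec ax u v) x),
    ((tower hP).along ax (m + 2) (sys.sh (axisVec ax u v) x)).val / width (m + 1),
    if 0 ≤ v then 0 else 2 * lvl (m + 1) - 1, ?_, ?_, rfl, ?_⟩
  · have : NeZero ((tower hP).W (m + 2)) := ⟨(width_pos _).ne'⟩
    rw [Nat.div_lt_iff_lt_mul (width_pos _), mul_comm]
    exact ZMod.val_lt _
  · obtain ⟨r1, r2⟩ := row_near (b := rowOf m v) (v := v.natAbs) hw hM hk hv
    have : 1 ≤ lvl (m + 1) := by have := lvl_ge (m + 1); omega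
    by_cases h0 : 0 ≤ v
    · rw [if_pos h0]
      exact .inl ⟨rfl, r1 (by rw [rowOf, if_pos h0])⟩
    · rw [if_neg h0]
      refine .inr ⟨by omega, ?_⟩
      rcases r2 (by rw [rowOf, if_neg h0, eW]) with h | h
      · exact h.1
      · omega
  · rw [top_succ_ax hP ax (m + 1) (sys.sh (axisVec ax u v) x)]
    congr 1
    have hw' := width_pos (m + 1)
    have e2 : width (m + 2) = width (m + 1) * (2 * lvl (m + 1)) := rfl
    have : 1 ≤ 2 * lvl (m + 1) := two_mul_lvl_pos _
    have e3 := Nat.le_mul_of_pos_right (width (m + 1)) (two_mul_lvl_pos (m + 1))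
    rw [hval (m + 2) (by omega) (lt_of_lt_of_le hv1 (Nat.le_of_dvd (width_pos _) ⟨_, e2⟩))]
    split_ifs with h0
    · exact Nat.div_eq_of_lt hv1
    · refine Nat.div_eq_of_lt_le ?_ ?_
      · rw [e2, Nat.sub_mul, one_mul, mul_comm (2 * lvl (m + 1))]
        omega
      · rw [e2, Nat.sub_add_cancel (by omega), mul_comm (2 * lvl (m + 1))]
        omega

/-- The middle or the ends excepted, a window of level `m` is that of a cell without bits. -/
theorem top_plain (m : ℕ) {x : Pts} (hx : x ∈ (tower hP).fault ax) (u v : ℤ)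
    (hv : 4 * v.natAbs ≤ lvl m * width m + 4 * width m) (i : ℕ)
    (hi : i = ((tower hP).along ax (m + 1) (sys.sh (axisVec ax u v) x)).val / width m)
    (hmid : i + K + 3 < lvl m ∨ lvl m + K + 3 < i) :
    top hP m (sys.sh (axisVec ax u v) x) = cplain ax (lvl m) i (rowOf m v) := by
  obtain ⟨hb, G, i', j', hi', hn, -, hT⟩ := level_tile hP ax m hx u v hv
  rw [top_succ_ax hP ax m, ← hi, hb, hT]
  exact cchild_plain G ax hi' hn hmid

/-- Cells at equal positions whose parents have equal signatures show the same tile. -/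
theorem top_congr (m : ℕ) {x x' : Pts} (hx : x ∈ (tower hP).fault ax)
    (hx' : x' ∈ (tower hP).fault ax) (u v : ℤ)
    (hv : 4 * v.natAbs ≤ lvl m * width m + 4 * width m)
    (ha : (tower hP).along ax (m + 1) x = (tower hP).along ax (m + 1) x')
    (hsig : sig forb (lvl m) (top hP (m + 1) (sys.sh (axisVec ax u v) x)) =
      sig forb (lvl m) (top hP (m + 1) (sys.sh (axisVec ax u v) x'))) :
    top hP m (sys.sh (axisVec ax u v) x) = top hP m (sys.sh (axisVec ax u v) x') := by
  obtain ⟨hb, G, i', j', hi', hn, hj, hT⟩ := level_tile hP ax m hx u v hv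
  obtain ⟨hb', G', i'', j'', hi'', -, hj', hT'⟩ := level_tile hP ax m hx' u v hv
  rw [hj'] at hT'
  rw [← hj] at hT'
  rw [hT, hT'] at hsig
  rw [top_succ_ax hP ax m, top_succ_ax hP ax m (sys.sh (axisVec ax u v) x'), hb, hb', hT, hT']
  simp only [(tower hP).along_sh, ha]
  exact cchild_congr G G' ax hi' hi'' hn hsig

/-- A locally constant observation sees a bounded window. -/
theorem exists_radius {α : Type} {f : Pts → α} (hf : IsLocallyConstant f) :
    ∃ r : ℕ, ∀ y y' : Pts, (∀ z : Lat, z.1.natAbs ≤ r → z.2.natAbs ≤ r →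
      tilesOf y z = tilesOf y' z) → f y = f y' := by
  classical
  have hloc : ∀ x : Pts, ∃ I : Finset Lat, ∀ y : Pts, (∀ z ∈ I, y.1 z = x.1 z) → f y = f x := by
    intro x
    obtain ⟨U, hU, hUeq⟩ := isOpen_induced_iff.1 (hf.isOpen_fiber (f x))
    obtain ⟨I, u, hu, hsub⟩ := isOpen_pi_iff.1 hU x.1 (by
      have : x ∈ Subtype.val ⁻¹' U := by rw [hUeq]; rfl
      exact this)
    refine ⟨I, fun y hy => ?_⟩
    have : y ∈ Subtype.val ⁻¹' U := hsub fun z hz => by rw [hy z hz]; exact (hu z hz).2
    rw [hUeq] at this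
    exact this
  choose I hI using hloc
  have hopen : ∀ x : Pts, IsOpen {y : Pts | ∀ z ∈ I x, y.1 z = x.1 z} := by
    intro x
    simp only [Set.ofPred_forall]
    exact isOpen_biInter_finset fun z _ =>
      (isOpen_discrete ({x.1 z} : Set Base)).preimage
        (f := fun y : Pts => y.1 z) ((continuous_apply z).comp continuous_subtype_val)
  obtain ⟨s, hs⟩ := isCompact_univ.elim_finite_subcover _ hopen fun x _ =>
    Set.mem_iUnion.2 ⟨x, fun z _ => rfl⟩
  refine ⟨(s.biUnion I).sup fun z => max z.1.natAbs z.2.natAbs, fun y y' h => ?_⟩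
  obtain ⟨x, hxs, hxy⟩ := Set.mem_iUnion₂.1 (hs (Set.mem_univ y))
  rw [hI x y hxy]
  refine (hI x y' fun z hz => ?_).symm
  have hle := Finset.le_sup (f := fun z : Lat => max z.1.natAbs z.2.natAbs)
    (Finset.mem_biUnion.2 ⟨x, hxs, hz⟩)
  rw [← hxy z hz]
  exact (Subtype.ext (h z (le_trans (le_max_left _ _) hle) (le_trans (le_max_right _ _) hle))).symm

/-- A window is determined by the phases and the tiles of level `m`. -/
theorem window_congr {α : Type} {f : Pts → α} {r m : ℕ}
    (hr : ∀ y y' : Pts, (∀ z : Lat, z.1.natAbs ≤ r → z.2.natAbs ≤ r →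
      tilesOf y z = tilesOf y' z) → f y = f y') (x x' : Pts) (j j' k : ℤ)
    (hal : (tower hP).along ax m x + (j : ZMod ((tower hP).W m)) =
      (tower hP).along ax m x' + (j' : ZMod ((tower hP).W m)))
    (hac : (tower hP).across ax m x = (tower hP).across ax m x')
    (h : ∀ a b : ℤ, a.natAbs ≤ r → b.natAbs ≤ r →
      top hP m (sys.sh (axisVec ax (j + a) (k + b)) x) =
        top hP m (sys.sh (axisVec ax (j' + a) (k + b)) x')) :
    f (sys.sh (axisVec ax j k) x) = f (sys.sh (axisVec ax j' k) x') := by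
  refine hr _ _ fun z hz1 hz2 => ?_
  have e : ∀ (j : ℤ) (x : Pts), tilesOf (sys.sh (axisVec ax j k) x) z =
      tilesOf (sys.sh (axisVec ax (j + vAlong ax z) (k + vAcross ax z)) x) 0 := by
    intro j x
    rw [tilesOf_sh, tilesOf_sh, zero_add]
    congr 1
    cases ax <;> ext <;> simp [axisVec, vAlong, vAcross] <;> ring
  rw [e, e]
  refine tilesOf_congr hP m _ _ (phase_congr_ax hP ax m _ _ ?_ ?_)
    (h _ _ (by cases ax <;> simpa [vAlong]) (by cases ax <;> simpa [vAcross]))
  · simp only [(tower hP).along_sh, vAlong_axisVec, Int.cast_add]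
    rw [← add_assoc, ← add_assoc]
    exact congrArg (· + _) hal
  · simp only [(tower hP).across_sh, vAcross_axisVec, hac]

theorem cdist_bounds {N W : ℕ} (hW : 0 < W) (hN : N = 2 * W) (a : ZMod N) {d : ℕ}
    (h0 : d < cdist a 0) (h1 : d < cdist a ((N / 2 : ℕ) : ZMod N)) :
    d < a.val ∧ a.val + d < 2 * W ∧ (a.val + d < W ∨ W + d < a.val) := by
  subst hN
  rw [Nat.mul_div_cancel_left W two_pos] at h1
  have : NeZero (2 * W) := ⟨by omega⟩
  have hv := ZMod.val_lt a
  simp only [cdist, sub_zero, ZMod.valMinAbs_natAbs_eq_min] at h0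
  have h2 : d < ((a.val : ℤ) - (W : ℕ)).natAbs := by
    refine lt_of_lt_of_le h1 ?_
    refine ZMod.natAbs_min_of_le_div_two (2 * W) _ _ ?_ (ZMod.natAbs_valMinAbs_le _)
    rw [ZMod.coe_valMinAbs, Int.cast_sub, Int.cast_natCast, Int.cast_natCast,
      ZMod.natCast_zmod_val]
  omega

theorem inRow_of_bounds {w M a b v A : ℕ} (hw : 0 < w) (hk : 100 ≤ K) (hM : 4 * K ≤ M)
    (hv : 4 * v ≤ M * w + 4 * w) (hb : b = v / w ∨ (b = (2 * (M * w) - v) / w ∧ 0 < v))
    (ha : a = A / w) (hd0 : 2 * v + (K + 8) * w < A) (hd1 : A + 2 * v + (K + 8) * w < 2 * (M * w))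
    (hd2 : A + (K + 8) * w < M * w ∨ M * w + (K + 8) * w < A) :
    InRow M a b ∧ (a + K + 3 < M ∨ M + K + 3 < a) ∧ (a + K + 3 < M ↔ A < M * w) := by
  have e1 : 4 * K * w ≤ M * w := Nat.mul_le_mul_right w hM
  have e2 : 100 * w ≤ K * w := Nat.mul_le_mul_right w hk
  obtain ⟨a1, a2⟩ := div_eq_bounds hw ha
  simp only [add_mul] at hd0 hd1 hd2
  have l1 : A + (K * w + 8 * w) < M * w → a + K + 3 < M := fun h => by
    refine lt_of_scaled (w := w) ?_
    simp only [add_mul]
    omega
  have l2 : M * w + (K * w + 8 * w) < A → M + K + 3 < a := fun h => by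
    refine lt_of_scaled (w := w) ?_
    simp only [add_mul]
    omega
  refine ⟨?_, hd2.imp l1 l2, ⟨fun h => ?_, fun h => l1 (by omega)⟩⟩
  · rcases hb with hb | ⟨hb, hv0⟩
    · obtain ⟨b1, b2⟩ := div_eq_bounds hw hb
      refine .inl ⟨(row_near hw hM hk hv).1 hb, lt_of_scaled (w := w) ?_,
        lt_of_scaled (w := w) ?_⟩ <;>
        simp only [add_mul, mul_assoc] <;> omega
    · obtain ⟨b1, b2⟩ := div_eq_bounds hw hb
      have hb' := ((row_near hw hM hk hv).2 hb).resolve_right (by omega)
      refine .inr ⟨hb'.1, hb'.2, lt_of_scaled (w := w) ?_, lt_of_scaled (w := w) ?_⟩ <;>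
        simp only [add_mul, mul_assoc] <;> omega
  · rcases hd2 with h' | h'
    · omega
    · have := l2 h'
      omega

/-- Finitely many keys give finitely many shapes. -/
theorem exists_shapes {κ β α : Type} [Fintype κ] (S : Set Pts) (key : Pts → κ)
    (shape : Pts → β → α) (P : β → Prop)
    (h : ∀ x ∈ S, ∀ x' ∈ S, key x = key x' → ∀ b, P b → shape x b = shape x' b) :
    ∃ A : Finset (β → α), A.card ≤ Fintype.card κ ∧
      ∀ x ∈ S, ∃ s ∈ A, ∀ b, P b → shape x b = s b := by
  classical
  rcases isEmpty_or_nonempty Pts with he | he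
  · exact ⟨∅, by simp, fun x => isEmptyElim x⟩
  obtain ⟨x₀⟩ := he
  refine ⟨Finset.univ.image fun q => if hq : ∃ x ∈ S, key x = q then shape hq.choose else shape x₀,
    Finset.card_image_le, fun x hx => ⟨_, Finset.mem_image_of_mem _ (Finset.mem_univ (key x)), ?_⟩⟩
  have hq : ∃ x' ∈ S, key x' = key x := ⟨x, hx, rfl⟩
  rw [dif_pos hq]
  exact fun b hb => h x hx _ hq.choose_spec.1 hq.choose_spec.2.symm b hb

variable {m r : ℕ} (hrW : r < width m)

include hrW in
/-- A row of a window away from the two channels. -/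
theorem plain_window {k a b : ℤ} (hk : k.natAbs ≤ width (m + 1) / 8) (ha : a.natAbs ≤ r)
    (hb : b.natAbs ≤ r) : ∀ z : Pts, z ∈ (tower hP).fault ax →
        2 * k.natAbs + (K * width m + 12 * width m) < ((tower hP).along ax (m + 1) z).val →
        ((tower hP).along ax (m + 1) z).val + (2 * k.natAbs + (K * width m + 12 * width m)) <
          2 * (lvl m * width m) →
        (((tower hP).along ax (m + 1) z).val + (2 * k.natAbs + (K * width m + 12 * width m)) <
          lvl m * width m ∨ lvl m * width m + (2 * k.natAbs + (K * width m + 12 * width m)) <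
            ((tower hP).along ax (m + 1) z).val) →
        ∃ i, top hP m (sys.sh (axisVec ax a (k + b)) z) = cplain ax (lvl m) i (rowOf m (k + b)) ∧
          InRow (lvl m) i (rowOf m (k + b)) ∧ (i + K + 3 < lvl m ∨ lvl m + K + 3 < i) ∧
          (i + K + 3 < lvl m ↔ ((tower hP).along ax (m + 1) z).val < lvl m * width m) := by
  obtain ⟨hK, -⟩ := K_large
  have eW := width_succ m
  have hM := lvl_ge m
  have hw := width_pos m
  have hv : 4 * (k + b).natAbs ≤ lvl m * width m + 4 * width m := by omega
  intro z hz z1 z2 z3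
  have hA := val_add_of_bounds ((tower hP).W_pos (m + 1)) ((tower hP).along ax (m + 1) z) a
    (by omega) (lt_of_lt_of_eq (b := ((2 * (lvl m * width m) : ℕ) : ℤ)) (by omega) (by rw [← eW]; rfl))
  have hy : (tower hP).along ax (m + 1) (sys.sh (axisVec ax a (k + b)) z) =
      (tower hP).along ax (m + 1) z + (a : ZMod ((tower hP).W (m + 1))) := by
    rw [(tower hP).along_sh, vAlong_axisVec]
  have hb : rowOf m (k + b) = (k + b).natAbs / width m ∨ (rowOf m (k + b) =
      (2 * (lvl m * width m) - (k + b).natAbs) / width m ∧ 0 < (k + b).natAbs) := by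
    by_cases h0 : 0 ≤ k + b
    · exact .inl (by rw [rowOf, if_pos h0])
    · exact .inr ⟨by rw [rowOf, if_neg h0, eW], by omega⟩
  obtain ⟨i1, i2, i3⟩ := inRow_of_bounds (M := lvl m) (b := rowOf m (k + b))
    (v := (k + b).natAbs) (A := ((tower hP).along ax (m + 1) z +
      (a : ZMod ((tower hP).W (m + 1)))).val) hw (by omega) hM hv hb rfl
    (by simp only [add_mul]; omega) (by simp only [add_mul]; omega)
    (by simp only [add_mul]; omega)
  exact ⟨_, top_plain hP ax m hz a (k + b) hv _ (by rw [hy]) i2, i1, i2, i3.trans (by omega)⟩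

include hrW in
/-- Away from the channels the rows are periodic on each half. -/
theorem periodic_rows {α : Type} {f : Pts → α}
    (hr : ∀ y y' : Pts, (∀ z : Lat, z.1.natAbs ≤ r → z.2.natAbs ≤ r →
      tilesOf y z = tilesOf y' z) → f y = f y') :
    ∀ x ∈ (tower hP).fault ax, ∀ x' ∈ (tower hP).fault ax, ∀ k : ℤ,
      k.natAbs ≤ (tower hP).reach m →
      (tower hP).along ax m x = (tower hP).along ax m x' →
      (((tower hP).along ax (m + 1) x).val < (tower hP).W (m + 1) / 2 ↔
        ((tower hP).along ax (m + 1) x').val < (tower hP).W (m + 1) / 2) →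
      (∀ c, 2 * k.natAbs + (K + 12) * (tower hP).W m <
        cdist ((tower hP).along ax (m + 1) x) ((tower hP).centre c m)) →
      (∀ c, 2 * k.natAbs + (K + 12) * (tower hP).W m <
        cdist ((tower hP).along ax (m + 1) x') ((tower hP).centre c m)) →
      f (sys.sh (axisVec ax 0 k) x) = f (sys.sh (axisVec ax 0 k) x') := by
  obtain ⟨hK, -⟩ := K_large
  have eW := width_succ m
  have hM := lvl_ge m
  have hw := width_pos m
  have e1 : 400 * width m ≤ lvl m * width m := Nat.mul_le_mul_right _ (by omega)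
  intro x hx x' hx' k hk hal hhalf hd hd'
  replace hk : k.natAbs ≤ width (m + 1) / 8 := hk
  have hMW : 0 < lvl m * width m := by omega
  obtain ⟨p1, p2, p3⟩ := cdist_bounds hMW eW _ (hd false) (hd true)
  obtain ⟨q1, q2, q3⟩ := cdist_bounds hMW eW _ (hd' false) (hd' true)
  have hWm : (tower hP).W m = width m := rfl
  have hWm' : (tower hP).W (m + 1) = width (m + 1) := rfl
  simp only [hWm, hWm', add_mul] at p1 p2 p3 q1 q2 q3 hhalf
  refine window_congr hP ax hr x x' 0 0 k (by rw [hal]) (by rw [hx m, hx' m])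
    fun a b ha hb => ?_
  rw [zero_add]
  have hv : 4 * (k + b).natAbs ≤ lvl m * width m + 4 * width m := by omega
  have key := plain_window hP ax hrW hk ha hb
  obtain ⟨i, t1, t2, t3, t4⟩ := key x hx p1 p2 p3
  obtain ⟨i', s1, s2, s3, s4⟩ := key x' hx' q1 q2 q3
  rw [t1, s1]
  rw [eW, Nat.mul_div_cancel_left _ two_pos] at hhalf
  exact cplain_congr hM ax t2 s2 (by omega) (by omega) (by omega)

include hrW in
/-- Near a channel boundedly many shapes occur. -/
theorem channel_shapes {α : Type} {f : Pts → α}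
    (hr : ∀ y y' : Pts, (∀ z : Lat, z.1.natAbs ≤ r → z.2.natAbs ≤ r →
      tilesOf y z = tilesOf y' z) → f y = f y') :
    ∀ c : Bool, ∃ shapes : Finset (ℤ → ℤ → α),
      shapes.card ≤ Fintype.card ((Sg → Bool) × (Sg → Bool)) ∧
      ∀ x ∈ (tower hP).fault ax, (tower hP).along ax (m + 1) x = (tower hP).centre c m →
        ∃ s ∈ shapes, ∀ j k : ℤ, j.natAbs ≤ (tower hP).reach m → k.natAbs ≤ (tower hP).reach m →
          f (sys.sh (axisVec ax j k) x) = s j k := by
  classical
  obtain ⟨hK, -⟩ := K_large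
  have eW := width_succ m
  have hM := lvl_ge m
  have hw := width_pos m
  have e1 : 400 * width m ≤ lvl m * width m := Nat.mul_le_mul_right _ (by omega)
  intro c
  have hWm' : (tower hP).W (m + 1) = width (m + 1) := rfl
  let x₁ : Pts → Pts := fun x => sys.sh (axisVec ax 0 (-1)) x
  refine (exists_shapes
    {x : Pts | x ∈ (tower hP).fault ax ∧
      (tower hP).along ax (m + 1) x = (tower hP).centre c m}
    (fun x => (sig forb (lvl m) (top hP (m + 1) x), sig forb (lvl m) (top hP (m + 1) (x₁ x))))
    (fun x (jk : ℤ × ℤ) => f (sys.sh (axisVec ax jk.1 jk.2) x))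
    (fun jk => jk.1.natAbs ≤ (tower hP).reach m ∧ jk.2.natAbs ≤ (tower hP).reach m) ?_).elim
    fun A ⟨hA, hmem⟩ => ?_
  · rintro x ⟨hx, hc⟩ x' ⟨hx', hc'⟩ hkey ⟨j, k⟩ ⟨hj, hk⟩
    replace hj : j.natAbs ≤ width (m + 1) / 8 := hj
    replace hk : k.natAbs ≤ width (m + 1) / 8 := hk
    have ha := hc.trans hc'.symm
    have hph := phase_congr_ax hP ax (m + 1) x x' ha (by rw [hx (m + 1), hx' (m + 1)])
    have hph' : (tower hP).phase m x = (tower hP).phase m x' := by
      rw [← (tower hP).phase_cast m x, hph, (tower hP).phase_cast m x']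
    refine window_congr hP ax hr x x' j j k ?_ (by rw [hx m, hx' m]) fun a b hab hbb => ?_
    · congr 1
      simp only [Tower.along, hph']
    have hv : 4 * (k + b).natAbs ≤ lvl m * width m + 4 * width m := by omega
    have hu : 4 * (j + a).natAbs ≤ lvl m * width m + 4 * width m := by omega
    cases c
    · have hA : ∀ z : Pts, (tower hP).along ax (m + 1) z = (tower hP).centre false m →
          ((tower hP).along ax (m + 1) (sys.sh (axisVec ax (j + a) (k + b)) z)).val / width m =
            rowOf m (j + a) := by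
        intro z hz
        rw [(tower hP).along_sh, vAlong_axisVec, hz]
        simp only [Tower.centre, Bool.false_eq_true, if_false, zero_add]
        rw [val_small ((tower hP).W_pos _) _ (by rw [hWm']; omega)]
        rfl
      have hmid : rowOf m (j + a) + K + 3 < lvl m ∨ lvl m + K + 3 < rowOf m (j + a) := by
        obtain ⟨r1, r2⟩ := row_near (b := rowOf m (j + a)) (v := (j + a).natAbs) hw hM
          (show 100 ≤ K by omega) hu
        by_cases h0 : 0 ≤ j + a
        · exact .inl (r1 (by rw [rowOf, if_pos h0]))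
        · exact .inr ((r2 (by rw [rowOf, if_neg h0, eW])).resolve_right (by omega)).1
      rw [top_plain hP ax m hx (j + a) (k + b) hv _ (hA x hc).symm hmid,
        top_plain hP ax m hx' (j + a) (k + b) hv _ (hA x' hc').symm hmid]
    · refine top_congr hP ax m hx hx' (j + a) (k + b) hv ha ?_
      have : NeZero ((tower hP).W (m + 1)) := ⟨(width_pos _).ne'⟩
      have hcv : ((tower hP).centre true m).val = lvl m * width m := by
        simp only [Tower.centre, if_true]
        rw [ZMod.val_natCast_of_lt (by rw [hWm']; omega), hWm']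
        omega
      have hsame : ∀ z : Pts, z ∈ (tower hP).fault ax →
          (tower hP).along ax (m + 1) z = (tower hP).centre true m →
          top hP (m + 1) (sys.sh (axisVec ax (j + a) (k + b)) z) =
            if 0 ≤ k + b then top hP (m + 1) z else top hP (m + 1) (x₁ z) := by
        intro z hz hzc
        split_ifs with h0
        · refine top_same_ax hP ax (m + 1) _ _ z ?_ ?_
          · rw [hzc, hcv]; omega
          · rw [hz (m + 1), ZMod.val_zero]; omega
        · have e : sys.sh (axisVec ax (j + a) (k + b)) z =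
              sys.sh (axisVec ax (j + a) (k + b + 1)) (x₁ z) := by
            rw [← sys.sh_add]
            congr 2
            cases ax <;> ext <;> simp [axisVec]
          rw [e]
          refine top_same_ax hP ax (m + 1) _ _ (x₁ z) ?_ ?_
          · simp only [x₁, (tower hP).along_sh, vAlong_axisVec, Int.cast_zero, add_zero, hzc, hcv]
            omega
          · simp only [x₁, (tower hP).across_sh, vAcross_axisVec, hz (m + 1), zero_add]
            rw [val_small ((tower hP).W_pos _) _ (by rw [hWm']; simp; omega), if_neg (by decide)]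
            rw [hWm']
            omega
      simp only [Prod.mk.injEq] at hkey
      rw [hsame x hx hc, hsame x' hx' hc']
      split_ifs
      · exact hkey.1
      · exact hkey.2
  · refine ⟨A.image fun s j k => s (j, k), Finset.card_image_le.trans hA, fun x hx hc => ?_⟩
    obtain ⟨s, hs, hsf⟩ := hmem x ⟨hx, hc⟩
    exact ⟨_, Finset.mem_image_of_mem _ hs, fun j k hj hk => hsf (j, k) ⟨hj, hk⟩⟩

/-- The tower of the subshift of tiles is sparse. -/
theorem sparse : (tower hP).Sparse := by
  refine ⟨K + 12, Fintype.card ((Sg → Bool) × (Sg → Bool)), fun α f _ hf C => ?_⟩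
  obtain ⟨r, hr⟩ := exists_radius hf
  have hpow : C + r < width (C + r) := lt_of_lt_of_le Nat.lt_two_pow_self (two_pow_le_width _)
  have hCM : C + r ≤ lvl (C + r) := by
    with_unfolding_all exact Nat.le_add_left _ _
  refine ⟨C + r, ?_, ?_, fun ax => ⟨periodic_rows hP ax (r := r) (by omega) hr,
    channel_shapes hP ax (r := r) (by omega) hr⟩⟩
  · show C ≤ width (C + r)
    omega
  · show C * width (C + r) ≤ width (C + r + 1)
    rw [width_succ]
    have : C * width (C + r) ≤ lvl (C + r) * width (C + r) :=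
      Nat.mul_le_mul_right _ (by omega)
    omega

end Vale.Agent.P196.Full.Tiles
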