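import Vale.Agent.P196.Full.Tiles.Spec
import Vale.Agent.P196.Full.Tiles.Geom.Grid

/-!
# P196: the geometric part of the parse of a configuration

A matching configuration of tiles with the geometry of block cells of level `s` is cut into blocks
of side `2 * lvl s` in exactly one way.
-/

namespace Vale.Agent.P196.Full.Tiles

attribute [local irreducible] K lvl

/-- The tile has the four geometric colours of the cell `(i, j)` of a block. -/
def SameGeom (M i j : ℕ) (T : Tile) : Prop :=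
  T.l.g = geoH M i j ∧ T.r.g = geoH M (i + 1) j ∧ T.d.g = geoV M i j ∧ T.u.g = geoV M i (j + 1)

theorem sameGeom_child (F : (Sg → Bool) → Bool) (M : ℕ) (T : Tile) (i j : ℕ) :
    SameGeom M i j (child F M T i j) :=
  ⟨rfl, rfl, rfl, rfl⟩

theorem hasGeom_of_ok {s : ℕ} {T : Tile} (h : OK s T) : HasGeom s T := by
  cases s with
  | succ s => exact h.1
  | zero =>
    have h' : Generated forb 0 T := h
    cases h' with
    | base =>
      have := Geo.four_K_le_lvl 0
      have := Geo.one_le_K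
      exact ⟨5, 5, by omega, by omega,
        rfl, rfl, rfl, rfl⟩
    | step _ P i j hP hi hj => exact ⟨i, j, hi, hj, rfl, rfl, rfl, rfl⟩

variable {s : ℕ} {x : ℤ × ℤ → Tile}

theorem cfg_of_matches (hg : ∀ z, HasGeom s (x z)) (hm : Matches x) :
    Geo.Cfg (lvl s) (fun a b => (x (a, b)).l.g) (fun a b => (x (a, b)).d.g.tr) := by
  refine ⟨Geo.four_K_le_lvl s, fun a b => ?_⟩
  obtain ⟨i, j, hi, hj, h1, h2, h3, h4⟩ := hg (a, b)
  refine ⟨i, j, hi, hj, h1, ?_, ?_, ?_⟩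
  · show (x (a + 1, b)).l.g = _
    rw [← h2, hm.1 (a, b)]
    simp
  · show (x (a, b)).d.g.tr = _
    rw [h3, Geo.geoV_tr]
  · show (x (a, b + 1)).d.g.tr = _
    rw [show (x (a, b + 1)).d = (x (a, b)).u by rw [hm.2 (a, b)]; simp, h4, Geo.geoV_tr]

theorem sameGeom_of_at (hm : Matches x) {a b : ℤ} {i j : ℕ}
    (h : Geo.At (lvl s) (fun a b => (x (a, b)).l.g) (fun a b => (x (a, b)).d.g.tr) a b i j) :
    SameGeom (lvl s) i j (x (a, b)) := by
  refine ⟨h.l, ?_, ?_, ?_⟩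
  · rw [hm.1 (a, b), ← h.r]
    simp
  · rw [geoV, ← h.d, Geo.GCol.tr_tr]
  · rw [hm.2 (a, b), geoV, ← h.u, Geo.GCol.tr_tr]
    simp

/-- The geometric part of the parse: the cells are exactly those of the blocks at one origin. -/
theorem exists_origin (hg : ∀ z, HasGeom s (x z)) (hm : Matches x) :
    ∃ o : ℤ × ℤ,
      (∀ (w : ℤ × ℤ) (i j : ℕ), i < 2 * lvl s → j < 2 * lvl s →
        SameGeom (lvl s) i j
          (x (o.1 + 2 * (lvl s : ℤ) * w.1 + i, o.2 + 2 * (lvl s : ℤ) * w.2 + j))) ∧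
      ∀ o' : ℤ × ℤ, SameGeom (lvl s) 0 0 (x o') →
        ∃ d : ℤ × ℤ, o' = (o.1 + 2 * (lvl s : ℤ) * d.1, o.2 + 2 * (lvl s : ℤ) * d.2) := by
  have c := cfg_of_matches hg hm
  obtain ⟨ox, oy, H⟩ := Geo.exists_block c
  refine ⟨(ox, oy), fun w i j hi hj => ?_, fun o' ho => ?_⟩
  · exact sameGeom_of_at hm ((Geo.grid_of_block c H w.1 w.2).at_cell hi hj)
  · obtain ⟨a, b⟩ := o'
    obtain ⟨h1, h2, h3, h4⟩ := ho
    have h0 : 0 < 2 * lvl s := by
      have := Geo.four_K_le_lvl s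
      have := Geo.one_le_K
      omega
    have ha : Geo.At (lvl s) (fun a b => (x (a, b)).l.g) (fun a b => (x (a, b)).d.g.tr) a b 0 0 := by
      refine ⟨h0, h0, h1, ?_, ?_, ?_⟩
      · show (x (a + 1, b)).l.g = _
        rw [← h2, hm.1 (a, b)]
        simp
      · show (x (a, b)).d.g.tr = _
        rw [h3, Geo.geoV_tr]
      · show (x (a, b + 1)).d.g.tr = _
        rw [show (x (a, b + 1)).d = (x (a, b)).u by rw [hm.2 (a, b)]; simp, h4, Geo.geoV_tr]
    obtain ⟨k, l, hk, hl⟩ := Geo.origin_unique c H ha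
    exact ⟨(k, l), by simp [hk, hl]⟩

/-- Every position is a cell of exactly one block of a grid. -/
theorem exists_cell (M : ℕ) (hM : 0 < M) (o z : ℤ × ℤ) :
    ∃ (w : ℤ × ℤ) (i j : ℕ), i < 2 * M ∧ j < 2 * M ∧
      z = (o.1 + 2 * (M : ℤ) * w.1 + i, o.2 + 2 * (M : ℤ) * w.2 + j) := by
  have hpos : (0 : ℤ) < 2 * M := by omega
  refine ⟨((z.1 - o.1) / (2 * M), (z.2 - o.2) / (2 * M)), ((z.1 - o.1) % (2 * M : ℤ)).toNat,
    ((z.2 - o.2) % (2 * M : ℤ)).toNat, ?_, ?_, ?_⟩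
  · have := Int.emod_lt_of_pos (z.1 - o.1) hpos
    have := Int.emod_nonneg (z.1 - o.1) hpos.ne'
    omega
  · have := Int.emod_lt_of_pos (z.2 - o.2) hpos
    have := Int.emod_nonneg (z.2 - o.2) hpos.ne'
    omega
  · rw [Int.toNat_of_nonneg (Int.emod_nonneg _ hpos.ne'),
      Int.toNat_of_nonneg (Int.emod_nonneg _ hpos.ne')]
    ext
    · have := Int.emod_add_mul_ediv (z.1 - o.1) (2 * M : ℤ)
      show z.1 = o.1 + _ + _
      linarith
    · have := Int.emod_add_mul_ediv (z.2 - o.2) (2 * M : ℤ)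
      show z.2 = o.2 + _ + _
      linarith

end Vale.Agent.P196.Full.Tiles
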