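import Vale.Agent.P196.Full.Tiles.Shrink

/-!
# P196: the bits of children do not see a deleted ring
-/

namespace Vale.Agent.P196.Full.Tiles

set_option linter.unusedSimpArgs false

/-- A number at distance at least five from `c`. -/
def Safe (c x : ℕ) : Prop := x + 5 ≤ c ∨ c + 5 ≤ x

theorem Safe.far {c x : ℕ} (h : Safe c x) : Far c x := by
  unfold Safe at h; unfold Far; omega

/-- The values of the colours of a tile are far from `c`. -/
def Vals (c : ℕ) (T : Tile) : Prop := ∀ s w, (T.gs s).val = some w → Far c w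

theorem Tile.gs0 (T : Tile) : T.gs 0 = T.l.g := rfl
theorem Tile.gs1 (T : Tile) : T.gs 1 = T.r.g := rfl
theorem Tile.gs2 (T : Tile) : T.gs 2 = T.d.g := rfl
theorem Tile.gs3 (T : Tile) : T.gs 3 = T.u.g := rfl

/-- How one coordinate of a child moves. -/
structure Moved (R A M c i x : ℕ) : Prop where
  lo : M - 1 ≤ x + R ↔ M ≤ i + R
  bound : x < M - 1 + R ↔ i < M + R
  coord : M ≤ i + R → i < M + R → x + R - (M - 1) = i + R - M
  lft : x + 1 ≤ M - 1 + R ↔ i + 1 ≤ M + R
  high : M - 1 + R ≤ x + 1 ↔ M + R ≤ i + 1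
  scan : x + 1 - (M - 1 + R) = dl c (i + 1 - (M + R))
  farScan : Far c (i + 1 - (M + R))
  le : x ≤ M - 1 ↔ i ≤ M
  gt : M - 1 < x ↔ M < i
  eq : x = M - 1 ↔ i = M
  top : x < 2 * (M - 1) ↔ i < 2 * M
  above : M - 1 < x + R ↔ M < i + R

theorem moved {R A M c i : ℕ} (hA : A + R + c = M) (hA2 : 6 ≤ A) (hc : 6 ≤ c)
    (h1 : Safe A i) (h2 : Safe A (2 * M - i)) (hi : i ≤ 2 * M) :
    Moved R A M c i (shr A M i) := by
  obtain ⟨x, hx, hd⟩ : ∃ x, shr A M i = x ∧ (i < A ∧ x = i ∨
      A < i ∧ i + A < 2 * M ∧ x + 1 = i ∨ 2 * M < i + A ∧ x + 2 = i) :=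
    ⟨_, rfl, by unfold Safe shr at *; split_ifs <;> omega⟩
  rw [hx]
  unfold Safe at h1 h2
  have hscan : x + 1 - (M - 1 + R) = dl c (i + 1 - (M + R)) := by
    unfold dl; split_ifs <;> omega
  refine ⟨?_, ?_, fun g1 g2 => ?_, ?_, ?_, hscan, ?_, ?_, ?_, ?_, ?_, ?_⟩
  all_goals try unfold Far
  all_goals omega

theorem le_iff_moved {A M i j : ℕ} (h1 : Safe A i) (h2 : Safe A (2 * M - i)) (h3 : Safe A j)
    (h4 : Safe A (2 * M - j)) (hi : i ≤ 2 * M) (hj : j ≤ 2 * M) :
    shr A M i ≤ shr A M j ↔ i ≤ j := by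
  unfold Safe shr at *; split_ifs <;> omega

section
variable {A M c i j : ℕ} {T : Tile} (f : (Sg → Bool) → Bool)
  (hA : A + K + c = M) (hA2 : 6 ≤ A) (hc : 6 ≤ c) (hT : Vals c T)
  (h1 : Safe A i) (h2 : Safe A (2 * M - i)) (h3 : Safe A j) (h4 : Safe A (2 * M - j))
  (hi : i ≤ 2 * M) (hj : j ≤ 2 * M)
include hA hA2 hc hT h1 h2 h3 h4 hi hj

theorem fillH_del (h : HL) :
    fillH f (M - 1) (T.del c) (shr A M i) (shr A M j) h = fillH f M T i j h := by
  have mi := moved hA hA2 hc h1 h2 hi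
  have mj := moved hA hA2 hc h3 h4 hj
  have hle := le_iff_moved h1 h2 h3 h4 hi hj
  generalize shr A M i = x at *
  generalize shr A M j = y at *
  have hs : sig f (M - 1) (T.del c) = sig f M T :=
    funext (sig_del f hT (by omega) (by omega))
  have hl : T.l.g.val.map (dl c) = some (dl c (j + 1 - (M + K))) ↔
      T.l.g.val = some (j + 1 - (M + K)) := map_dl_eq mj.farScan (hT 0)
  have hr : T.r.g.val.map (dl c) = some (dl c (j + 1 - (M + K))) ↔
      T.r.g.val = some (j + 1 - (M + K)) := map_dl_eq mj.farScan (hT 1)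
  have hd : T.d.g.val.map (dl c) = some (dl c (j + 1 - (M + K))) ↔
      T.d.g.val = some (j + 1 - (M + K)) := map_dl_eq mj.farScan (hT 2)
  have hu : T.u.g.val.map (dl c) = some (dl c (j + 1 - (M + K))) ↔
      T.u.g.val = some (j + 1 - (M + K)) := map_dl_eq mj.farScan (hT 3)
  unfold fillH
  simp only [shown_del, hs, Tile.tagCell_del]
  simp only [Tile.del, GCol.val_del, GCol.tagA_del, GCol.tagB_del, mj.lo, mj.bound, mi.above,
    mi.bound, mi.lft, mj.high, mj.scan, mi.le, mi.gt, hle,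
    apply_ite (fun o : Option ℕ => o = some (dl c (j + 1 - (M + K)))),
    apply_ite (fun o : Option ℕ => o = some (j + 1 - (M + K))), hl, hr, hd, hu]
  by_cases hb : M ≤ j + K ∧ j < M + K
  · rw [mj.coord hb.1 hb.2]
  · cases h <;> simp [hb]

theorem fillV_del (h : VL) :
    fillV f (M - 1) (T.del c) (shr A M i) (shr A M j) h = fillV f M T i j h := by
  have mi := moved hA hA2 hc h1 h2 hi
  have mj := moved hA hA2 hc h3 h4 hj
  have hle := le_iff_moved h3 h4 h1 h2 hj hi
  generalize shr A M i = x at *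
  generalize shr A M j = y at *
  have hs : sig f (M - 1) (T.del c) = sig f M T :=
    funext (sig_del f hT (by omega) (by omega))
  have hd : T.d.g.val.map (dl c) = some (dl c (i + 1 - (M + K))) ↔
      T.d.g.val = some (i + 1 - (M + K)) := map_dl_eq mi.farScan (hT 2)
  have hu : T.u.g.val.map (dl c) = some (dl c (i + 1 - (M + K))) ↔
      T.u.g.val = some (i + 1 - (M + K)) := map_dl_eq mi.farScan (hT 3)
  have hscan : ∀ k, scanBit (fun s => ((T.del c).gs s).val) (M - 1 - K)
      (dl c (j + 1 - (M + K))) k = scanBit (fun s => (T.gs s).val) (M - K) (j + 1 - (M + K)) k := by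
    intro k
    rw [show M - 1 - K = M - K - 1 by omega]
    simp only [Tile.gs_del, GCol.val_del]
    exact scanBit_del hT mj.farScan (by omega) (by omega) k
  have hgs : ∀ (k : Fin 2) (b : ℕ) (l : Fin 9),
      coordBit (fun s => ((T.del c).gs s).coord k) b l = coordBit (fun s => (T.gs s).coord k) b l := by
    intro k b l
    simp only [Tile.gs_del, GCol.coord_del]
  unfold fillV
  simp only [shown_del, hs, Tile.tagCell_del, hscan, hgs, mi.lo, mi.bound, mj.bound, mj.above, mj.lft, mi.high,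
    mi.scan, mj.scan, mi.eq, mj.top, mj.above, hle]
  simp only [Tile.del, GCol.val_del, GCol.tagA_del, GCol.tagB_del,
    apply_ite (fun o : Option ℕ => o = some (dl c (i + 1 - (M + K)))),
    apply_ite (fun o : Option ℕ => o = some (i + 1 - (M + K))), hd, hu]
  by_cases hb : M ≤ i + K ∧ i < M + K
  · rw [mi.coord hb.1 hb.2]
    by_cases hb' : M < j + K ∧ j < M + K
    · rw [mj.coord hb'.1.le hb'.2]
    · cases h <;> simp [hb, hb']
  · cases h <;> simp [hb]

end

end Vale.Agent.P196.Full.Tiles
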