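import Vale.Agent.P196.Full.Tiles.Spec
import Vale.Agent.P196.Full.Tiles.ShrinkFill

/-!
# P196: signatures of children are the same on every level
-/

namespace Vale.Agent.P196.Full.Tiles

theorem lvl_succ (s : ℕ) : lvl (s + 1) = lvl s + 1 := by simp [lvl]; omega

theorem K_ge : 128 ≤ K := by
  unfold K
  generalize 2 ^ nS = a
  omega

theorem lvl_large (s : ℕ) : 4 * K ≤ lvl s := by simp [lvl, M0]

attribute [local irreducible] K M0 lvl geoH geoV fillH fillV sig

theorem hasGeom_child (f : (Sg → Bool) → Bool) (s : ℕ) (T : Tile) {i j : ℕ} (hi : i < 2 * lvl s)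
    (hj : j < 2 * lvl s) : HasGeom s (child f (lvl s) T i j) :=
  ⟨i, j, hi, hj, rfl, rfl, rfl, rfl⟩

/-- A number at distance at least six from `c`. -/
def Away (c x : ℕ) : Prop := x + 6 ≤ c ∨ c + 6 ≤ x

theorem Away.near {c N i : ℕ} (h : Away c i) (h' : Away c (N - 1 - i)) (hi : i < N) :
    Far c i ∧ Far c (i + 1) ∧ Far c (N - i) ∧ Far c (N - (i + 1)) ∧ Far c (N - 1 - i) ∧
      Safe c i ∧ Safe c (i + 1) ∧ Safe c (N - i) ∧ Safe c (N - (i + 1)) ∧ Far c (N - 1 - (i + 1)) := by
  unfold Away at h h'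
  unfold Far Safe
  refine ⟨?_, ?_, ?_, ?_, ?_, ?_, ?_, ?_, ?_, ?_⟩ <;> omega

theorem Away.refl {A K' M c i : ℕ} (h : Away c (M - K' - i)) (hA : A + K' + c = M) (hc : 6 ≤ c) :
    Away A i := by
  unfold Away at *; omega

/-- The four colours of a cell after deleting a ring. -/
theorem cell_del {c M i j : ℕ} (hc : 6 ≤ c) (hM : c + K + 2 ≤ M) (hi : i < 2 * M) (hj : j < 2 * M)
    (hiS : Away c i) (hiT : Away c (2 * M - 1 - i))
    (hjS : Away c j) (hjT : Away c (2 * M - 1 - j)) :
    geoH (M - 1) (shr c M i) (shr c M j) = (geoH M i j).del c ∧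
      geoH (M - 1) (shr c M i + 1) (shr c M j) = (geoH M (i + 1) j).del c ∧
      geoV (M - 1) (shr c M i) (shr c M j) = (geoV M i j).del c ∧
      geoV (M - 1) (shr c M i) (shr c M j + 1) = (geoV M i (j + 1)).del c := by
  obtain ⟨i1, i2, i3, i4, i5, -, -, -, -, i6⟩ := hiS.near hiT hi
  obtain ⟨j1, j2, j3, j4, j5, -, -, -, -, j6⟩ := hjS.near hjT hj
  have hx : shr c M (i + 1) = shr c M i + 1 := shr_succ i1 i3 hi
  have hy : shr c M (j + 1) = shr c M j + 1 := shr_succ j1 j3 hj
  rw [← hx, ← hy]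
  refine ⟨geoH_del (by omega) hM i1 i3 j1 j5 hi.le hj, geoH_del (by omega) hM i2 i4 j1 j5 hi hj, ?_, ?_⟩
  · unfold geoV
    rw [← GCol.tr_del]
    exact congrArg GCol.tr (geoH_del (by omega) hM j1 j3 i1 i5 hj.le hi)
  · unfold geoV
    rw [← GCol.tr_del]
    exact congrArg GCol.tr (geoH_del (by omega) hM j2 j4 i1 i5 hj hi)

/-- The values on a cell are near its coordinates or their mirror images. -/
theorem cell_vals {c M i j : ℕ} {T : Tile} (hl : T.l.g = geoH M i j)
    (hr : T.r.g = geoH M (i + 1) j) (hd : T.d.g = geoV M i j) (hu : T.u.g = geoV M i (j + 1))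
    (hiS : Away c i) (hiT : Away c (2 * M - 1 - i))
    (hjS : Away c j) (hjT : Away c (2 * M - 1 - j)) :
    Vals c T := by
  intro s w hw
  have : w = j ∨ w = 2 * M - 1 - j ∨ w = i ∨ w = 2 * M - i ∨ w = i + 1 ∨ w = 2 * M - (i + 1) ∨
      w = 2 * M - 1 - i ∨ w = 2 * M - j ∨ w = j + 1 ∨ w = 2 * M - (j + 1) := by
    fin_cases s
    · rcases geoH_val (hl ▸ hw : (geoH M i j).val = some w) with h | h | h | h <;> omega
    · rcases geoH_val (hr ▸ hw : (geoH M (i + 1) j).val = some w) with h | h | h | h <;> omega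
    · rcases geoV_val (hd ▸ hw : (geoV M i j).val = some w) with h | h | h | h <;> omega
    · rcases geoV_val (hu ▸ hw : (geoV M i (j + 1)).val = some w) with h | h | h | h <;> omega
  unfold Away at hiS hiT hjS hjT
  unfold Far
  omega

theorem child_del {A M c i j : ℕ} {T : Tile} (f : (Sg → Bool) → Bool) (hA : A + K + c = M)
    (hA2 : 6 ≤ A) (hc : 6 ≤ c) (hT : Vals c T) (hi : i < 2 * M) (hj : j < 2 * M)
    (hiS : Away A i) (hiT : Away A (2 * M - 1 - i))
    (hjS : Away A j) (hjT : Away A (2 * M - 1 - j)) :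
    child f (M - 1) (T.del c) (shr A M i) (shr A M j) = (child f M T i j).del A := by
  obtain ⟨g1, g2, g3, g4⟩ := cell_del hA2 (by omega) hi hj hiS hiT hjS hjT
  obtain ⟨i1, -, i3, -, -, s1, s3, s2, s4, -⟩ := hiS.near hiT hi
  obtain ⟨j1, -, j3, -, -, t1, t3, t2, t4, -⟩ := hjS.near hjT hj
  have hx : shr A M (i + 1) = shr A M i + 1 := shr_succ i1 i3 hi
  have hy : shr A M (j + 1) = shr A M j + 1 := shr_succ j1 j3 hj
  have b1 : fillH f (M - 1) (T.del c) (shr A M i) (shr A M j) = fillH f M T i j :=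
    funext (fillH_del f hA hA2 hc hT s1 s2 t1 t2 hi.le hj.le)
  have b2 : fillH f (M - 1) (T.del c) (shr A M i + 1) (shr A M j) = fillH f M T (i + 1) j :=
    hx ▸ funext (fillH_del f hA hA2 hc hT s3 s4 t1 t2 hi hj.le)
  have b3 : fillV f (M - 1) (T.del c) (shr A M i) (shr A M j) = fillV f M T i j :=
    funext (fillV_del f hA hA2 hc hT s1 s2 t1 t2 hi.le hj.le)
  have b4 : fillV f (M - 1) (T.del c) (shr A M i) (shr A M j + 1) = fillV f M T i (j + 1) :=
    hy ▸ funext (fillV_del f hA hA2 hc hT s1 s2 t3 t4 hi.le hj)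
  simp only [child, Tile.del] at b1 b2 b3 b4 ⊢
  rw [g1, g2, g3, g4, b1, b2, b3, b4]

theorem exists_c (u : Fin 8 → ℕ) : ∃ c, 16 ≤ c ∧ c ≤ 144 ∧ ∀ k, Away c (u k) := by
  by_contra h
  unfold Away at h
  push Not at h
  have : ∀ d : Fin 9, ∃ k, 16 + 16 * (d : ℕ) < u k + 6 ∧ u k < 16 + 16 * (d : ℕ) + 6 := fun d =>
    h _ (by omega) (by omega)
  choose g hg using this
  obtain ⟨a, b, hab, he⟩ := Fintype.exists_ne_map_eq_of_card_lt g (by simp)
  have h1 := hg a
  have h2 := hg b
  rw [he] at h1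
  exact hab (Fin.ext (by omega))

/-- A child of a tile of level `s + 3` has the signature of one of a tile of level `s + 2`. -/
theorem exists_lower (f : (Sg → Bool) → Bool) (s : ℕ) (T : Tile) (i j : ℕ)
    (hT : HasGeom (s + 3) T) (hi : i < 2 * lvl (s + 2)) (hj : j < 2 * lvl (s + 2)) :
    ∃ T' i' j', HasGeom (s + 2) T' ∧ i' < 2 * lvl (s + 1) ∧ j' < 2 * lvl (s + 1) ∧
      sig f (lvl (s + 1)) T' = sig f (lvl (s + 2)) T ∧
      sig f (lvl s) (child f (lvl (s + 1)) T' i' j') =
        sig f (lvl (s + 1)) (child f (lvl (s + 2)) T i j) := by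
  obtain ⟨I, J, hI, hJ, hl, hr, hd, hu⟩ := hT
  have eU : lvl (s + 3) = lvl (s + 2) + 1 := lvl_succ (s + 2)
  have eM : lvl (s + 2) = lvl (s + 1) + 1 := lvl_succ (s + 1)
  have eL := lvl_succ s
  have hK := K_ge
  have hL := lvl_large s
  obtain ⟨M, hM⟩ : ∃ M, lvl (s + 2) = M := ⟨_, rfl⟩
  rw [hM] at hi hj eM
  rw [show lvl (s + 3) = M + 1 by omega] at hI hJ hl hr hd hu
  obtain ⟨c, c1, c2, hu'⟩ := exists_c ![I, J, 2 * (M + 1) - 1 - I, 2 * (M + 1) - 1 - J, M - K - i,
    M - K - j, M - K - (2 * M - 1 - i), M - K - (2 * M - 1 - j)]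
  have w0 : Away c I := hu' 0
  have w1 : Away c J := hu' 1
  have w2 : Away c (2 * (M + 1) - 1 - I) := hu' 2
  have w3 : Away c (2 * (M + 1) - 1 - J) := hu' 3
  obtain ⟨A, hA⟩ : ∃ A, A + K + c = M := ⟨M - K - c, by omega⟩
  have v0 : Away A i := Away.refl (hu' 4) hA (by omega)
  have v1 : Away A j := Away.refl (hu' 5) hA (by omega)
  have v2 : Away A (2 * M - 1 - i) := Away.refl (hu' 6) hA (by omega)
  have v3 : Away A (2 * M - 1 - j) := Away.refl (hu' 7) hA (by omega)
  have hTv : Vals c T := cell_vals hl hr hd hu w0 w2 w1 w3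
  obtain ⟨g1, g2, g3, g4⟩ := cell_del (c := c) (M := M + 1) (i := I) (j := J) (by omega) (by omega)
    hI hJ w0 w2 w1 w3
  have hI' := (w0.near w2 hI).2.2.1
  have hJ' := (w1.near w3 hJ).2.2.1
  have hi' := (v0.near v2 hi).2.2.1
  have hj' := (v1.near v3 hj).2.2.1
  have h2 : 2 * lvl (s + 2) = 2 * ((M + 1) - 1) := by omega
  have h1 : lvl (s + 1) = M - 1 := by omega
  have h0 : lvl s = lvl (s + 1) - 1 := by omega
  refine ⟨T.del c, shr A M i, shr A M j, ⟨shr c (M + 1) I, shr c (M + 1) J, ?_, ?_, ?_, ?_, ?_, ?_⟩,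
    ?_, ?_, ?_, ?_⟩
  · rw [h2]; exact shr_lt (by omega) hI' hI
  · rw [h2]; exact shr_lt (by omega) hJ' hJ
  · rw [hM]; simp only [Tile.del, hl]; exact g1.symm
  · rw [hM]; simp only [Tile.del, hr]; exact g2.symm
  · rw [hM]; simp only [Tile.del, hd]; exact g3.symm
  · rw [hM]; simp only [Tile.del, hu]; exact g4.symm
  · rw [h1]; exact shr_lt (by omega) hi' hi
  · rw [h1]; exact shr_lt (by omega) hj' hj
  · rw [hM, h1]; exact funext (sig_del f hTv (by omega) (by omega))
  · rw [hM, h0, h1, child_del f hA (by omega) (by omega) hTv hi hj v0 v2 v1 v3]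
    exact funext (sig_del f (cell_vals (M := M) (i := i) (j := j)
      (by unfold child; rfl) (by unfold child; rfl) (by unfold child; rfl) (by unfold child; rfl)
      v0 v2 v1 v3) (by omega) (by omega))

theorem allowed_of_child (F : (Sg → Bool) → Bool) :
    ∀ (s : ℕ) (T : Tile) (i j : ℕ), HasGeom (s + 2) T → F (sig F (lvl (s + 1)) T) = false →
      i < 2 * lvl (s + 1) → j < 2 * lvl (s + 1) →
      sig F (lvl s) (child F (lvl (s + 1)) T i j) ∈ Allowed := by
  intro s
  induction s with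
  | zero => exact fun T i j hT hF hi hj => ⟨F, T, i, j, hT, hF, hi, hj, rfl⟩
  | succ s ih =>
    intro T i j hT hF hi hj
    obtain ⟨T', i', j', hT', hi', hj', e1, e2⟩ := exists_lower F s T i j hT hi hj
    rw [← e2]
    exact ih T' i' j' hT' (e1 ▸ hF) hi' hj'

/-- Children of valid tiles have allowed signatures. -/
theorem allowedGoal : AllowedGoal := by
  intro s T i j hT hi hj
  refine allowed_of_child forb s T i j hT.1 ?_ hi hj
  simp [forb, hT.2]

theorem hasGeom_of_generated {f : (Sg → Bool) → Bool} {s : ℕ} {T : Tile}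
    (h : Generated f s T) : HasGeom s T := by
  cases h with
  | base =>
    have := K_ge
    have := lvl_large s
    exact ⟨5, 5, by omega, by omega, rfl, rfl, rfl, rfl⟩
  | step s T i j h hi hj => exact hasGeom_child _ _ _ hi hj

theorem fill_corner (f : (Sg → Bool) → Bool) {M x y : ℕ} (T : Tile) (hx : x ≤ 6) (hy : y ≤ 6)
    (hM : K + 8 ≤ M) : fillH f M T x y = (fun _ => false) ∧ fillV f M T x y = (fun _ => false) := by
  constructor
  · funext h
    have e1 : ¬ (M ≤ y + K) := by omega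
    have e2 : ¬ (M + K ≤ y + 1) := by omega
    unfold fillH
    cases h <;> simp [e1, e2]
  · funext h
    have e1 : ¬ (M ≤ x + K) := by omega
    have e2 : ¬ (M + K ≤ x + 1) := by omega
    have e3 : ¬ (x = M) := by omega
    unfold fillV
    cases h <;> simp [e1, e2, e3]

theorem child_corner (f : (Sg → Bool) → Bool) (s : ℕ) (T : Tile) :
    child f (lvl s) T 5 5 = seed (lvl s) := by
  have hM : K + 8 ≤ lvl s := by have := K_ge; have := lvl_large s; omega
  simp only [child, seed]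
  rw [(fill_corner f T (x := 5) (y := 5) (by omega) (by omega) hM).1,
    (fill_corner f T (x := 5 + 1) (y := 5) (by omega) (by omega) hM).1,
    (fill_corner f T (x := 5) (y := 5) (by omega) (by omega) hM).2,
    (fill_corner f T (x := 5) (y := 5 + 1) (by omega) (by omega) hM).2]

theorem sig_seed (f g : (Sg → Bool) → Bool) (M : ℕ) {L : ℕ} (hL : K + 8 ≤ L) :
    sig f M (seed L) = sig g M (seed L) := by
  have : (seed L).tagCell = none := by
    have e : ¬ (L ≤ 5 + K) := by omega
    have e' : ¬ (5 = 2 * L) := by omega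
    simp only [Tile.tagCell, seed, geoH, e, e', false_and, if_false, false_or, reduceIte,
      Nat.succ_ne_self, OfNat.ofNat_ne_zero]
    split
    · next h => split_ifs at h
    · rfl
  funext q
  rcases q with x | x | x | x <;> simp [sig, this]

/-- The seeds are valid. -/
theorem valid_seed (s : ℕ) : Valid s (seed (lvl (s + 1))) := by
  have hK := K_ge
  have hL := lvl_large (s + 1)
  have hL' := lvl_large (s + 2)
  refine ⟨hasGeom_of_generated (f := forb) (Generated.base (s + 1)), ?_⟩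
  rw [sig_seed forb forb0 _ (by omega), ← child_corner forb0 (s + 1) (seed (lvl (s + 2)))]
  exact allowed_of_child forb0 s _ 5 5 (hasGeom_of_generated (f := forb) (Generated.base (s + 2)))
    rfl (by omega) (by omega)

/-- Generated tiles are valid. -/
theorem valid_of_generated {t : ℕ} {T : Tile} (h : Generated forb t T) :
    ∀ s, t = s + 1 → Valid s T := by
  induction h with
  | base t => rintro s rfl; exact valid_seed s
  | step t T i j h hi hj ih =>
    rintro s rfl
    exact ⟨hasGeom_child _ _ _ hi hj, allowedGoal s T i j (ih (s + 1) rfl) hi hj⟩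

theorem ok_of_generated {s : ℕ} {T : Tile} (h : Generated forb s T) : OK s T := by
  cases s with
  | zero => exact h
  | succ s => exact valid_of_generated h s rfl

end Vale.Agent.P196.Full.Tiles
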