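import Vale.Agent.P196.Full.Tiles.Defs

/-!
# P196: the statements about the tile tower
-/

namespace Vale.Agent.P196.Full.Tiles

/-- What is known of the tiles of a configuration of level `s`. -/
def OK : ℕ → Tile → Prop
  | 0, T => Generated forb 0 T
  | s + 1, T => Valid s T

/-- Blocks of matching parents match along their common sides. -/
def CrossGoal : Prop :=
  ∀ (s : ℕ) (T T' : Tile), HasGeom (s + 1) T → HasGeom (s + 1) T' →
    (T.r = T'.l → ∀ j < 2 * lvl s,
      (child forb (lvl s) T (2 * lvl s - 1) j).r = (child forb (lvl s) T' 0 j).l) ∧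
    (T.u = T'.d → ∀ i < 2 * lvl s,
      (child forb (lvl s) T i (2 * lvl s - 1)).u = (child forb (lvl s) T' i 0).d)

/-- The seed is a child of every tile. -/
def SeedGoal : Prop :=
  ∀ (s : ℕ) (T : Tile), HasGeom (s + 1) T → child forb (lvl s) T 5 5 = seed (lvl s)

/-- Children of valid tiles of any level have allowed signatures. -/
def AllowedGoal : Prop :=
  ∀ (s : ℕ) (T : Tile) (i j : ℕ), Valid (s + 1) T → i < 2 * lvl (s + 1) → j < 2 * lvl (s + 1) →
    sig forb (lvl s) (child forb (lvl (s + 1)) T i j) ∈ Allowed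

/-- Unique decomposition of a configuration into blocks of valid parents. -/
def ParseGoal : Prop :=
  ∀ (s : ℕ) (x : ℤ × ℤ → Tile), (∀ z, OK s (x z)) → Matches x →
    ∃ o y, Decomposes s x o y ∧ (∀ w, OK (s + 1) (y w)) ∧ Matches y ∧
      ∀ o' y', Decomposes s x o' y' → (∀ w, OK (s + 1) (y' w)) →
        ∃ d : ℤ × ℤ, o' = (o.1 + 2 * (lvl s : ℤ) * d.1, o.2 + 2 * (lvl s : ℤ) * d.2) ∧
          ∀ w, y' w = y (w + d)

/-- A tower of configurations, each cut into blocks of the next. -/
structure Hierarchy where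
  /-- The configuration of each level. -/
  x : ℕ → ℤ × ℤ → Tile
  /-- The origin of the blocks in each level. -/
  o : ℕ → ℤ × ℤ
  ok : ∀ s z, OK s (x s z)
  matching : ∀ s, Matches (x s)
  dec : ∀ s, Decomposes s (x s) (o s) (x (s + 1))

/-- Side of a supertile: the level `s + t` seen in cells of level `s`. -/
noncomputable def side : ℕ → ℕ → ℕ
  | _, 0 => 1
  | s, t + 1 => 2 * lvl s * side (s + 1) t

/-- The descendants of level `s` of a tile of level `s + t`. -/
noncomputable def desc : ℕ → ℕ → Tile → ℕ → ℕ → Tile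
  | _, 0, P => fun _ _ => P
  | s, t + 1, P => fun i j =>
      child forb (lvl s) (desc (s + 1) t P (i / (2 * lvl s)) (j / (2 * lvl s)))
        (i % (2 * lvl s)) (j % (2 * lvl s))

/-- In the hierarchy above a point every tile is generated. -/
def GeneratedGoal : Prop := ∀ (H : Hierarchy) (s : ℕ) (z : ℤ × ℤ), Generated forb s (H.x s z)

/-- Every square of four neighbours in a hierarchy occurs inside a generated supertile. -/
def OccursGoal : Prop :=
  ∀ (H : Hierarchy) (s : ℕ) (z : ℤ × ℤ), ∃ (t : ℕ) (P : Tile) (i j : ℕ),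
    Generated forb (s + t) P ∧ i + 1 < side s t ∧ j + 1 < side s t ∧
      ∀ a b : ℕ, a < 2 → b < 2 → desc s t P (i + a) (j + b) = H.x s (z + ((a : ℤ), (b : ℤ)))

end Vale.Agent.P196.Full.Tiles
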