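import Vale.Agent.P196.Full.Tiles.Space

/-!
# P196: compact spaces of configurations of each level and their decomposition
-/

namespace Vale.Agent.P196.Full.Tiles

open Set

attribute [local irreducible] K lvl

theorem two_mul_lvl_pos (s : ℕ) : 0 < 2 * lvl s := by
  have := six_le_two_mul_lvl s
  omega

theorem OK.hasGeom {s : ℕ} {T : Tile} (h : OK s T) : HasGeom s T :=
  match s, h with
  | 0, h => Generated.hasGeom h
  | _ + 1, h => h.1

/-- A tile of the geometry of a cell of level `s`, from the cell and the bits. -/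
noncomputable def cellCode (s : ℕ) (p : Fin (2 * lvl s) × Fin (2 * lvl s) × (HL → Bool) ×
    (HL → Bool) × (VL → Bool) × (VL → Bool)) : Tile where
  l := ⟨geoH (lvl s) p.1 p.2.1, p.2.2.1⟩
  r := ⟨geoH (lvl s) (p.1 + 1) p.2.1, p.2.2.2.1⟩
  d := ⟨geoV (lvl s) p.1 p.2.1, p.2.2.2.2.1⟩
  u := ⟨geoV (lvl s) p.1 (p.2.1 + 1), p.2.2.2.2.2⟩

/-- The tiles of level `s`. -/
abbrev LTile (s : ℕ) : Type := {T : Tile // OK s T}

instance (s : ℕ) : Finite (LTile s) := by
  have : {T : Tile | OK s T}.Finite := by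
    refine (Set.finite_range (cellCode s)).subset ?_
    rintro T hT
    obtain ⟨i, j, hi, hj, h1, h2, h3, h4⟩ := OK.hasGeom hT
    refine ⟨(⟨i, hi⟩, ⟨j, hj⟩, T.l.bit, T.r.bit, T.d.bit, T.u.bit), ?_⟩
    obtain ⟨⟨lg, lb⟩, ⟨rg, rb⟩, ⟨dg, db⟩, ⟨ug, ub⟩⟩ := T
    simp only at h1 h2 h3 h4
    subst h1; subst h2; subst h3; subst h4
    rfl
  exact this.to_subtype

instance (s : ℕ) : TopologicalSpace (LTile s) := ⊥

instance (s : ℕ) : DiscreteTopology (LTile s) := ⟨rfl⟩

/-- The configurations of level `s`. -/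
abbrev Cfg (s : ℕ) : Type := {c : ℤ × ℤ → LTile s // Matches fun z => (c z).1}

/-- The configuration of tiles. -/
def Cfg.tiles {s : ℕ} (c : Cfg s) : ℤ × ℤ → Tile := fun z => (c.1 z).1

theorem Cfg.ok {s : ℕ} (c : Cfg s) (z : ℤ × ℤ) : OK s (c.tiles z) := (c.1 z).2

theorem Cfg.matching {s : ℕ} (c : Cfg s) : Matches c.tiles := c.2

theorem Cfg.ext {s : ℕ} {c c' : Cfg s} (h : ∀ z, c.tiles z = c'.tiles z) : c = c' :=
  Subtype.ext (funext fun z => Subtype.ext (h z))

theorem isClosed_cfg (s : ℕ) : IsClosed {c : ℤ × ℤ → LTile s | Matches fun z => (c z).1} := by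
  have key : ∀ (a b : ℤ × ℤ) (R : LTile s → LTile s → Prop),
      IsClosed {c : ℤ × ℤ → LTile s | R (c a) (c b)} := fun a b R =>
    IsClosed.preimage (f := fun c : ℤ × ℤ → LTile s => (c a, c b))
      ((continuous_apply a).prodMk (continuous_apply b)) (t := {p : LTile s × LTile s | R p.1 p.2})
      (isClosed_discrete _)
  simp only [Matches, Set.ofPred_and, Set.ofPred_forall]
  exact (isClosed_iInter fun z => key z _ fun p q => p.1.r = q.1.l).inter
    (isClosed_iInter fun z => key z _ fun p q => p.1.u = q.1.d)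

instance (s : ℕ) : CompactSpace (Cfg s) := isCompact_iff_compactSpace.1 (isClosed_cfg s).isCompact

/-- The configuration of level `0` of a point. -/
def Cfg.ofPts (x : Pts) : Cfg 0 := ⟨fun z => ⟨(x.1 z).1, (x.1 z).2⟩, x.2⟩

@[simp] theorem Cfg.tiles_ofPts (x : Pts) : (Cfg.ofPts x).tiles = tilesOf x := rfl

theorem continuous_ofPts : Continuous Cfg.ofPts :=
  Continuous.subtype_mk (f := fun (x : Pts) (z : ℤ × ℤ) => (⟨(x.1 z).1, (x.1 z).2⟩ : LTile 0))
    (continuous_pi fun z =>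
      ((continuous_of_discreteTopology (f := fun b : Base => (⟨b.1, b.2⟩ : LTile 0))).comp
        ((continuous_apply z).comp continuous_subtype_val))) _

/-- A normalised place of the blocks and the configuration of their parents. -/
abbrev Cut (s : ℕ) : Type := (Fin (2 * lvl s) × Fin (2 * lvl s)) × Cfg (s + 1)

/-- The place of the blocks as a vector. -/
def Cut.origin {s : ℕ} (q : Cut s) : ℤ × ℤ := ((q.1.1 : ℕ), (q.1.2 : ℕ))

/-- Two decompositions differ by a translation of the parents. -/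
theorem decomposes_unique (hP : ParseGoal) {s : ℕ} (c : Cfg s) {o₁ o₂ : ℤ × ℤ}
    {y₁ y₂ : ℤ × ℤ → Tile} (h₁ : Decomposes s c.tiles o₁ y₁) (k₁ : ∀ w, OK (s + 1) (y₁ w))
    (h₂ : Decomposes s c.tiles o₂ y₂) (k₂ : ∀ w, OK (s + 1) (y₂ w)) :
    ∃ d : ℤ × ℤ, o₂ = (o₁.1 + 2 * (lvl s : ℤ) * d.1, o₁.2 + 2 * (lvl s : ℤ) * d.2) ∧
      ∀ w, y₂ w = y₁ (w + d) := by
  obtain ⟨o, y, -, -, -, huniq⟩ := hP s c.tiles c.ok c.matching
  obtain ⟨d₁, e₁, f₁⟩ := huniq o₁ y₁ h₁ k₁
  obtain ⟨d₂, e₂, f₂⟩ := huniq o₂ y₂ h₂ k₂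
  refine ⟨d₂ - d₁, ?_, fun w => ?_⟩
  · subst e₁ e₂
    ext <;> simp <;> ring
  · rw [f₂ w, f₁, add_assoc, sub_add_cancel]

theorem exists_cut (hP : ParseGoal) {s : ℕ} (c : Cfg s) :
    ∃ q : Cut s, Decomposes s c.tiles q.origin q.2.tiles := by
  obtain ⟨o, y, hdec, hok, hm, -⟩ := hP s c.tiles c.ok c.matching
  have hn : (0 : ℤ) < 2 * (lvl s : ℤ) := by exact_mod_cast two_mul_lvl_pos s
  set n : ℤ := 2 * (lvl s : ℤ) with hndef
  have hcast : ((2 * lvl s : ℕ) : ℤ) = n := by simp [hndef]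
  have hlt : ∀ a : ℤ, (a % n).toNat < 2 * lvl s := by
    intro a
    have := Int.emod_lt_of_pos a hn
    have := Int.emod_nonneg a hn.ne'
    omega
  let y' : ℤ × ℤ → LTile (s + 1) := fun w =>
    ⟨y (w - (o.1 / n, o.2 / n)), hok _⟩
  have hm' : Matches fun w => (y' w).1 := by
    refine ⟨fun w => ?_, fun w => ?_⟩
    · have := hm.1 (w - (o.1 / n, o.2 / n))
      simpa [y', sub_add_eq_add_sub] using this
    · have := hm.2 (w - (o.1 / n, o.2 / n))
      simpa [y', sub_add_eq_add_sub] using this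
  refine ⟨((⟨_, hlt o.1⟩, ⟨_, hlt o.2⟩), ⟨y', hm'⟩), fun w i j hi hj => ?_⟩
  have := hdec (w - (o.1 / n, o.2 / n)) i j hi hj
  simp only [Cut.origin, Cfg.tiles, y', Int.toNat_of_nonneg (Int.emod_nonneg _ hn.ne'),
    Prod.fst_sub, Prod.snd_sub, ← hndef] at this ⊢
  rw [show o.1 % n + n * w.1 + (i : ℤ) = o.1 + n * (w.1 - o.1 / n) + i by
      rw [Int.emod_def]; ring,
    show o.2 % n + n * w.2 + (j : ℤ) = o.2 + n * (w.2 - o.2 / n) + j by
      rw [Int.emod_def]; ring]
  exact this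

/-- The normalised decomposition of a configuration. -/
noncomputable def cut (hP : ParseGoal) {s : ℕ} (c : Cfg s) : Cut s := (exists_cut hP c).choose

theorem cut_decomposes (hP : ParseGoal) {s : ℕ} (c : Cfg s) :
    Decomposes s c.tiles (cut hP c).origin (cut hP c).2.tiles :=
  (exists_cut hP c).choose_spec

theorem cut_unique (hP : ParseGoal) {s : ℕ} (c : Cfg s) (q : Cut s)
    (hq : Decomposes s c.tiles q.origin q.2.tiles) : cut hP c = q := by
  obtain ⟨d, e, f⟩ := decomposes_unique hP c hq q.2.ok (cut_decomposes hP c) (cut hP c).2.ok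
  have aux : ∀ (a b : Fin (2 * lvl s)) (t : ℤ),
      ((a : ℕ) : ℤ) = ((b : ℕ) : ℤ) + 2 * (lvl s : ℤ) * t → t = 0 ∧ a = b := by
    intro a b t h
    have ha : ((a : ℕ) : ℤ) < 2 * (lvl s : ℤ) := by exact_mod_cast a.isLt
    have hb : ((b : ℕ) : ℤ) < 2 * (lvl s : ℤ) := by exact_mod_cast b.isLt
    have ha0 : (0 : ℤ) ≤ ((a : ℕ) : ℤ) := Int.natCast_nonneg _
    have hb0 : (0 : ℤ) ≤ ((b : ℕ) : ℤ) := Int.natCast_nonneg _
    have ht : t = 0 := by
      rcases lt_trichotomy t 0 with h' | h' | h'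
      · nlinarith
      · exact h'
      · nlinarith
    refine ⟨ht, Fin.ext ?_⟩
    subst ht
    simpa using h
  obtain ⟨h1, a1⟩ := aux _ _ _ (congrArg Prod.fst e)
  obtain ⟨h2, a2⟩ := aux _ _ _ (congrArg Prod.snd e)
  have hd : d = 0 := Prod.ext h1 h2
  refine Prod.ext (Prod.ext a1 a2) (Cfg.ext fun z => ?_)
  rw [f, hd, add_zero]

theorem isClosed_decomposes (s : ℕ) :
    IsClosed {p : Cfg s × Cut s | Decomposes s p.1.tiles p.2.origin p.2.2.tiles} := by
  have hfin : ∀ (r : Fin (2 * lvl s) × Fin (2 * lvl s)),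
      IsClosed {p : Cfg s × Cfg (s + 1) | Decomposes s p.1.tiles ((r.1 : ℕ), (r.2 : ℕ)) p.2.tiles} := by
    intro r
    simp only [Decomposes, Set.ofPred_forall]
    refine isClosed_iInter fun w => isClosed_iInter fun i => isClosed_iInter fun j =>
      isClosed_iInter fun hi => isClosed_iInter fun hj => ?_
    exact IsClosed.preimage
      (f := fun p : Cfg s × Cfg (s + 1) => ((p.1.1 _, p.2.1 w) : LTile s × LTile (s + 1)))
      (((continuous_apply _).comp (continuous_subtype_val.comp continuous_fst)).prodMk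
        ((continuous_apply w).comp (continuous_subtype_val.comp continuous_snd)))
      (t := {q : LTile s × LTile (s + 1) | q.1.1 = child forb (lvl s) q.2.1 i j})
      (isClosed_discrete _)
  have : {p : Cfg s × Cut s | Decomposes s p.1.tiles p.2.origin p.2.2.tiles} =
      ⋃ r, (fun p : Cfg s × Cut s => (p.1, p.2.2)) ⁻¹'
        {p : Cfg s × Cfg (s + 1) | Decomposes s p.1.tiles ((r.1 : ℕ), (r.2 : ℕ)) p.2.tiles} ∩
        (fun p : Cfg s × Cut s => p.2.1) ⁻¹' {r} := by
    ext p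
    simp [Cut.origin]
  rw [this]
  exact isClosed_iUnion_of_finite fun r =>
    ((hfin r).preimage (continuous_fst.prodMk (continuous_snd.comp continuous_snd))).inter
      ((isClosed_discrete _).preimage (continuous_fst.comp continuous_snd))

theorem continuous_cut (hP : ParseGoal) (s : ℕ) : Continuous (cut hP (s := s)) := by
  refine continuous_iff_isClosed.2 fun A hA => ?_
  have h : (cut hP (s := s)) ⁻¹' A = Prod.fst ''
      ({p : Cfg s × Cut s | Decomposes s p.1.tiles p.2.origin p.2.2.tiles} ∩ Prod.snd ⁻¹' A) := by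
    ext c
    refine ⟨fun hc => ⟨(c, cut hP c), ⟨cut_decomposes hP c, hc⟩, rfl⟩, ?_⟩
    rintro ⟨⟨c', q⟩, ⟨hq, hA'⟩, rfl⟩
    show cut hP c' ∈ A
    rwa [cut_unique hP c' q hq]
  rw [h]
  exact isClosedMap_fst_of_compactSpace _
    ((isClosed_decomposes s).inter (hA.preimage continuous_snd))

end Vale.Agent.P196.Full.Tiles
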