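import Mathlib

/-!
# P196: the tile tower

A tile of parameter `M` carries, on its four sides, the geometric colours of a cell of a square
block of half-width `M` (rings around a tagged central block) and finitely many bits.  The bits of
the children of a tile are given by explicit formulas (`fillH`, `fillV`); a tile is valid when its
finite signature is the signature of a tile generated from a fixed seed.
-/

namespace Vale.Agent.P196.Full.Tiles

/-- Geometric colours: outer sides of a block, tags of the central block, sides of rings.
Zones are numbered bottom, top, left, right. -/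
inductive GCol
  | outer (k : Fin 4)
  | tag (a b : ℕ)
  | side (z : Fin 4) (hi : Bool) (v : ℕ)
  deriving DecidableEq

/-- Bit layers of vertical edges, read horizontally. `C`, `Mk`, `A`, `B` reach the sides of the
block; the others are internal. -/
inductive HL
  | C | Mk | MD | MU | A | B | P | AR | AD | AU | BR | BD | BU
  | O (i : Fin 64)
  deriving DecidableEq, Fintype

/-- Bit layers of horizontal edges, read vertically. -/
inductive VL
  | C | Mk | A | B | CT | AT | BT | Bus | Qm
  | S (i : Fin 17)
  | U (c : Fin 2) (i : Fin 9)
  | Uk (c : Fin 2) (p : Fin 3) (i : Fin 9)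
  | O (i : Fin 64)
  | O1 (i : Fin 64)
  deriving DecidableEq, Fintype

/-- The bits of a colour displayed inside the children. -/
abbrev DI := Fin 4 ⊕ (HL ⊕ VL)

/-- The signals gathered in the central block: the displayed bits (each shown twice), the scan of
the values, snapshots of the scans of the two tag coordinates, and the bits of the block cell. -/
inductive Sg
  | side (s : Fin 4) (t : DI) (k : Fin 2)
  | scan (i : Fin 17)
  | coord (c : Fin 2) (p : Fin 3) (i : Fin 9)
  | op (i : Fin 64)
  deriving DecidableEq, Fintype

/-- Number of displayed bits. -/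
noncomputable def nC : ℕ := Fintype.card DI

/-- Number of signals. -/
noncomputable def nS : ℕ := Fintype.card Sg

/-- Index of a displayed bit. -/
noncomputable def cIdx : DI ≃ Fin nC := Fintype.equivFin DI

/-- Index of a signal. -/
noncomputable def sIdx : Sg ≃ Fin nS := Fintype.equivFin Sg

/-- Half-width of the central block. -/
noncomputable def K : ℕ := 4 * 2 ^ nS + 16 * (nC + nS + 8)

/-- Half-width of the smallest block. -/
noncomputable def M0 : ℕ := 4 * K

/-- Half-width of the block of level `s`. -/
noncomputable def lvl (s : ℕ) : ℕ := M0 + s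

/-- Transposition of zones. -/
def trZone (z : Fin 4) : Fin 4 :=
  if z = 0 then 2 else if z = 1 then 3 else if z = 2 then 0 else 1

/-- Transposition of colours. -/
def GCol.tr : GCol → GCol
  | .outer k => .outer k
  | .tag a b => .tag b a
  | .side z hi v => .side (trZone z) hi v

/-- The colour of the edge on the left of cell `(i, j)` of a block of half-width `M`. -/
noncomputable def geoH (M i j : ℕ) : GCol :=
  if i = 0 ∨ i = 2 * M then
    .outer (if j = 0 then 0 else if j + 1 = 2 * M then 1 else if j < M then 2 else 3)
  else if M ≤ i + K ∧ i ≤ M + K ∧ M ≤ j + K ∧ j < M + K then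
    .tag (i + K - M) (j + K - M)
  else if j < min (min i (2 * M - i)) (2 * M - 1 - j) then
    .side 0 (decide (M < i)) j
  else if 2 * M - 1 - j < min i (2 * M - i) then
    .side 1 (decide (M < i)) (2 * M - 1 - j)
  else if i < M then .side 2 (decide (M ≤ j)) i
  else .side 3 (decide (M ≤ j)) (2 * M - i)

/-- The colour of the edge below cell `(i, j)`. -/
noncomputable def geoV (M i j : ℕ) : GCol := (geoH M j i).tr

/-- A colour: geometry and bits. -/
structure Col (L : Type) where
  /-- The geometric part. -/
  g : GCol
  /-- The bits. -/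
  bit : L → Bool

/-- A tile: left, right, bottom and top colours. -/
structure Tile where
  /-- The left colour. -/
  l : Col HL
  /-- The right colour. -/
  r : Col HL
  /-- The bottom colour. -/
  d : Col VL
  /-- The top colour. -/
  u : Col VL

/-- The four geometric colours, in the order left, right, bottom, top. -/
def Tile.gs (T : Tile) (s : Fin 4) : GCol := ![T.l.g, T.r.g, T.d.g, T.u.g] s

/-- Four bits naming the kind of a geometric colour. -/
noncomputable def GCol.code : GCol → ℕ
  | .outer k => k
  | .tag a b => if a = 2 * K ∨ b = 2 * K then 5 else 4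
  | .side z hi _ => 8 + 2 * (z : ℕ) + (if hi then 1 else 0)

/-- The value of a side colour. -/
def GCol.val : GCol → Option ℕ
  | .side _ _ v => some v
  | _ => none

/-- First coordinate of a tag. -/
def GCol.tagA : GCol → Option ℕ
  | .tag a _ => some a
  | _ => none

/-- Second coordinate of a tag. -/
def GCol.tagB : GCol → Option ℕ
  | .tag _ b => some b
  | _ => none

/-- The displayed bit of a left or right colour. -/
noncomputable def hBit (c : Col HL) : DI → Bool
  | .inl k => c.g.code.testBit k
  | .inr (.inl h) => c.bit h
  | .inr (.inr _) => false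

/-- The displayed bit of a bottom or top colour. -/
noncomputable def vBit (c : Col VL) : DI → Bool
  | .inl k => c.g.code.testBit k
  | .inr (.inl _) => false
  | .inr (.inr h) => c.bit h

/-- The displayed bit of one side of a tile. -/
noncomputable def Tile.sideBit (T : Tile) (s : Fin 4) (t : DI) : Bool :=
  if s = 0 then hBit T.l t else if s = 1 then hBit T.r t
  else if s = 2 then vBit T.d t else vBit T.u t

/-- The state of the downward scan of the four markers above the value `j`; the bits are
`seen` (4), `late` (4), `zero` (4), `max` (4) and one bit saying that some marker is at `j`.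
The argument `m` is the largest admissible value. -/
def scanBit (v : Fin 4 → Option ℕ) (m j : ℕ) (i : Fin 17) : Bool :=
  let seen (s : Fin 4) : Bool := (v s).any fun w => decide (j ≤ w)
  if h : (i : ℕ) < 4 then seen ⟨i, h⟩
  else if h : (i : ℕ) < 8 then
    seen ⟨i - 4, by omega⟩ &&
      decide (∃ s, (v ⟨i - 4, by omega⟩).any (fun w => (v s).any fun w' => decide (w < w')) = true)
  else if h : (i : ℕ) < 12 then decide (j = 0) && decide (v ⟨i - 8, by omega⟩ = some 0)
  else if h : (i : ℕ) < 16 then seen ⟨i - 12, by omega⟩ && decide (v ⟨i - 12, by omega⟩ = some m)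
  else decide (∃ s, v s = some j)

/-- The state of the downward scan of one tag coordinate of the four sides above the row `j`; the
bits are `seen` (4), `late` (4) and one bit saying that some coordinate equals `j`. -/
def coordBit (v : Fin 4 → Option ℕ) (j : ℕ) (i : Fin 9) : Bool :=
  let seen (s : Fin 4) : Bool := (v s).any fun w => decide (j ≤ w)
  if h : (i : ℕ) < 4 then seen ⟨i, h⟩
  else if h : (i : ℕ) < 8 then
    seen ⟨i - 4, by omega⟩ &&
      decide (∃ s, (v ⟨i - 4, by omega⟩).any (fun w => (v s).any fun w' => decide (w < w')) = true)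
  else decide (∃ s, v s = some j)

/-- Table position of the two copies of a displayed bit; both a row and a column. -/
noncomputable def cPos (t : DI) (k : Fin 2) : ℕ := 4 + 2 * (cIdx t : ℕ) + (k : ℕ)

/-- Table row of a signal. -/
noncomputable def sRow (q : Sg) : ℕ := 4 + 2 * nC + sIdx q

/-- The four columns carrying a signal, two on each half of the block. -/
noncomputable def sCol (q : Sg) (h k : Fin 2) : ℕ :=
  (if h = 0 then 4 + 2 * nC + nS else K + 2) + 2 * (sIdx q : ℕ) + (k : ℕ)

/-- First column of the minterms. -/
noncomputable def mBase : ℕ := K + 2 + 2 * nS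

/-- The rows where the scans of the tag coordinates are recorded. -/
noncomputable def snap (p : Fin 3) : ℕ :=
  if p = 0 then 0 else if p = 1 then K else K + 1

/-- Whether a column is one of the minterm columns, one for every pattern of signals. -/
noncomputable def usable (a : ℕ) : Bool := decide (mBase ≤ a ∧ a < mBase + 2 ^ nS)

/-- The pattern tested by a minterm column. -/
noncomputable def patOf (a : ℕ) (q : Sg) : Bool :=
  (a - mBase).testBit (sIdx q)

/-- The number naming the layer read at a signal row. -/
noncomputable def portIdx (b : ℕ) (bitNo : ℕ) : Bool :=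
  open Classical in
  decide ((∃ k : Fin 17, b = sRow (.scan k) ∧ (k : ℕ).testBit bitNo = true) ∨
    (∃ k : Fin 64, b = sRow (.op k) ∧ (k : ℕ).testBit bitNo = true) ∨
    ∃ (c : Fin 2) (p : Fin 3) (i : Fin 9), b = sRow (.coord c p i) ∧ ((p : ℕ) * 9 + (i : ℕ)).testBit bitNo = true)

/-- The bits naming the cell `(a, b)` of the central block, given the table of forbidden
patterns. -/
noncomputable def opBit (forb : (Sg → Bool) → Bool) (a b : ℕ) (i : Fin 64) : Bool :=
  open Classical in
  match (i : ℕ) with
  | 0 => decide (a = b)
  | 1 => decide (a = 0)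
  | 2 => decide (a = 1)
  | 3 => decide (a + 1 = 2 * K)
  | 4 => decide (b = 0)
  | 5 => decide (b + 1 = 2 * K)
  | 6 => decide (a = K)
  | 7 => decide (∃ t k, b = cPos t k)
  | 8 => decide (∃ t k, a = cPos t k)
  | 9 => decide (∃ q, b = sRow q)
  | 10 => decide (∃ q h k, a = sCol q h k)
  | 11 => usable a
  | 12 => usable a && decide (∃ q, b = sRow q)
  | 13 => usable a && decide (∃ q, b = sRow q ∧ patOf a q = true)
  | 14 => usable a && decide (b + 1 = 2 * K) && forb (patOf a)
  | 15 => decide (∃ t k h k', a = sCol (.side 0 t k) h k' ∧ b = cPos t k)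
  | 16 => decide (∃ t k h k', a = sCol (.side 1 t k) h k' ∧ b = cPos t k)
  | 17 => decide (∃ t k, a = cPos t k ∧ b = sRow (.side 2 t k))
  | 18 => decide (∃ t k, a = cPos t k ∧ b = sRow (.side 3 t k))
  | 19 => decide (∃ q h k, a = sCol q h k ∧ b = sRow q)
  | 20 => decide (∃ k, a = K ∧ b = sRow (.scan k))
  | 21 => decide (∃ (c : Fin 2) (p : Fin 3) (k : Fin 9), a = (c : ℕ) ∧ b = sRow (.coord c p k))
  | 22 => decide (∃ k, a + 1 = 2 * K ∧ b = sRow (.op k))
  | 23 => decide (∃ p, a = 0 ∧ b = snap p) || decide (∃ p, a = 1 ∧ b = snap p)
  | 24 => decide (∃ p : Fin 3, b = snap p ∧ (p : ℕ).testBit 0 = true)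
  | 25 => decide (∃ p : Fin 3, b = snap p ∧ (p : ℕ).testBit 1 = true)
  | 28 => portIdx b 0
  | 29 => portIdx b 1
  | 30 => portIdx b 2
  | 31 => portIdx b 3
  | 32 => portIdx b 4
  | 33 => portIdx b 5
  | _ => false

/-- The block cell of a tile, when it is tagged. -/
noncomputable def Tile.tagCell (T : Tile) : Option (ℕ × ℕ) :=
  match T.l.g with
  | .tag a b => if a < 2 * K ∧ b < 2 * K then some (a, b) else none
  | _ => none

/-- A tag coordinate of a colour, when the block has a row with that number. -/
noncomputable def GCol.coord (g : GCol) (c : Fin 2) : Option ℕ :=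
  (if c = 0 then g.tagA else g.tagB).filter fun x => decide (x < 2 * K)

/-- The signals of a tile; `M` is the half-width of the block of its children. -/
noncomputable def sig (forb : (Sg → Bool) → Bool) (M : ℕ) (T : Tile) : Sg → Bool
  | .side s t _ => T.sideBit s t
  | .scan i => scanBit (fun s => (T.gs s).val) (M - K) 0 i
  | .coord c p i =>
      coordBit (fun s => (T.gs s).coord c) (snap p) i
  | .op i => (T.tagCell).any fun c => opBit forb c.1 c.2 i

/-- The bit shown by a row or column of the central block for a side of the parent. -/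
noncomputable def shown (T : Tile) (s : Fin 4) (b : ℕ) : Bool :=
  open Classical in
  decide (∃ t k, b = cPos t k ∧ T.sideBit s t = true)

/-- The bits of the edge on the left of cell `(i, j)` in the children of `T`. -/
noncomputable def fillH (forb : (Sg → Bool) → Bool) (M : ℕ) (T : Tile) (i j : ℕ) : HL → Bool :=
  open Classical in
  let inRow : Bool := decide (M ≤ j + K ∧ j < M + K)
  let b : ℕ := j + K - M
  let inner : Bool := inRow && decide (M < i + K ∧ i < M + K)
  let v : ℕ := j + 1 - (M + K)
  let high : Bool := decide (M + K ≤ j + 1)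
  let lft : Bool := decide (i + 1 ≤ M + K)
  fun h => match h with
  | .C => inRow && (if lft then shown T 0 b else shown T 1 b)
  | .Mk => high && decide ((if i ≤ M then T.l.g.val else T.r.g.val) = some v)
  | .MD => high && decide (M < i ∧ i ≤ j) && decide (T.d.g.val = some v)
  | .MU => high && decide (M < i ∧ i ≤ j) && decide (T.u.g.val = some v)
  | .A => inRow && decide ((if lft then T.l.g.tagA else T.r.g.tagA) = some b)
  | .B => inRow && decide ((if lft then T.l.g.tagB else T.r.g.tagB) = some b)
  | .AR => inner && decide (T.r.g.tagA = some b)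
  | .AD => inner && decide (T.d.g.tagA = some b)
  | .AU => inner && decide (T.u.g.tagA = some b)
  | .BR => inner && decide (T.r.g.tagB = some b)
  | .BD => inner && decide (T.d.g.tagB = some b)
  | .BU => inner && decide (T.u.g.tagB = some b)
  | .P => inner && (shown T 1 b || decide (∃ q, b = sRow q ∧ sig forb M T q = true))
  | .O k => inner &&
      decide (∃ c, T.tagCell = some c ∧ c.2 = b ∧ opBit forb c.1 c.2 k = true)

/-- The bits of the edge below cell `(i, j)` in the children of `T`. -/
noncomputable def fillV (forb : (Sg → Bool) → Bool) (M : ℕ) (T : Tile) (i j : ℕ) : VL → Bool :=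
  open Classical in
  let inCol : Bool := decide (M ≤ i + K ∧ i < M + K)
  let a : ℕ := i + K - M
  let b : ℕ := j + K - M
  let inner : Bool := inCol && decide (M < j + K ∧ j < M + K)
  let low : Bool := decide (j + 1 ≤ M + K)
  fun h => match h with
  | .C => inCol && (if low then shown T 2 a else shown T 3 a)
  | .Mk => decide (M + K ≤ i + 1) &&
      decide ((if j ≤ i then T.d.g.val else T.u.g.val) = some (i + 1 - (M + K)))
  | .A => inCol && decide ((if low then T.d.g.tagA else T.u.g.tagA) = some a)
  | .B => inCol && decide ((if low then T.d.g.tagB else T.u.g.tagB) = some a)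
  | .CT => inner && shown T 3 a
  | .AT => inner && decide (T.u.g.tagA = some a)
  | .BT => inner && decide (T.u.g.tagB = some a)
  | .Bus => inCol && decide (M < j + K ∧ j < 2 * M) &&
      decide (∃ q h' k, a = sCol q h' k ∧ sig forb M T q = true)
  | .Qm => inner && usable a && decide (∀ q, sRow q < b → sig forb M T q = patOf a q)
  | .S k => decide (i = M ∧ M < j + K ∧ j < 2 * M) &&
      scanBit (fun s => (T.gs s).val) (M - K) (j + 1 - (M + K)) k
  | .U c k => inner && decide (a = (c : ℕ)) &&
      coordBit (fun s => (T.gs s).coord c) b k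
  | .Uk c p k => inner && decide (a = (c : ℕ)) &&
      coordBit (fun s => (T.gs s).coord c) (snap p) k
  | .O k => inner && decide (a + 1 = 2 * K) &&
      decide (∃ c, T.tagCell = some c ∧ b ≤ c.2 ∧ opBit forb c.1 c.2 k = true)
  | .O1 k => inner && decide (a + 1 = 2 * K) && sig forb M T (.op k)

/-- The child at cell `(i, j)` of a tile. -/
noncomputable def child (forb : (Sg → Bool) → Bool) (M : ℕ) (T : Tile) (i j : ℕ) : Tile where
  l := ⟨geoH M i j, fillH forb M T i j⟩
  r := ⟨geoH M (i + 1) j, fillH forb M T (i + 1) j⟩
  d := ⟨geoV M i j, fillV forb M T i j⟩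
  u := ⟨geoV M i (j + 1), fillV forb M T i (j + 1)⟩

/-- The seed: a corner tile without bits. -/
noncomputable def seed (M : ℕ) : Tile where
  l := ⟨geoH M 5 5, fun _ => false⟩
  r := ⟨geoH M 6 5, fun _ => false⟩
  d := ⟨geoV M 5 5, fun _ => false⟩
  u := ⟨geoV M 5 6, fun _ => false⟩

/-- The tiles of level `s` descending from a seed. -/
inductive Generated (forb : (Sg → Bool) → Bool) : ℕ → Tile → Prop
  | base (s : ℕ) : Generated forb s (seed (lvl s))
  | step (s : ℕ) (T : Tile) (i j : ℕ) (h : Generated forb (s + 1) T)
      (hi : i < 2 * lvl s) (hj : j < 2 * lvl s) :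
      Generated forb s (child forb (lvl s) T i j)

/-- The geometry of a cell of level `s`. -/
def HasGeom (s : ℕ) (T : Tile) : Prop :=
  ∃ i j, i < 2 * lvl s ∧ j < 2 * lvl s ∧ T.l.g = geoH (lvl s) i j ∧
    T.r.g = geoH (lvl s) (i + 1) j ∧ T.d.g = geoV (lvl s) i j ∧
    T.u.g = geoV (lvl s) i (j + 1)

/-- A table forbidding nothing. -/
def forb0 : (Sg → Bool) → Bool := fun _ => false

/-- The signatures that can occur: those of the children, at level `1`, of the tiles of level `2`
with arbitrary bits that are not forbidden, for an arbitrary table of forbidden patterns. -/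
def Allowed : Set (Sg → Bool) :=
  {p | ∃ F T i j, HasGeom 2 T ∧ F (sig F (lvl 1) T) = false ∧ i < 2 * lvl 1 ∧ j < 2 * lvl 1 ∧
    p = sig F (lvl 0) (child F (lvl 1) T i j)}

/-- The table of forbidden patterns. -/
noncomputable def forb : (Sg → Bool) → Bool :=
  open Classical in fun p => decide (p ∉ Allowed)

/-- A valid tile of level `s + 1`: the geometry of some cell and an allowed signature; its
children have level `s`. -/
def Valid (s : ℕ) (T : Tile) : Prop := HasGeom (s + 1) T ∧ sig forb (lvl s) T ∈ Allowed

/-- A configuration of tiles matches along all edges. -/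
def Matches (x : ℤ × ℤ → Tile) : Prop :=
  (∀ z, (x z).r = (x (z + (1, 0))).l) ∧ (∀ z, (x z).u = (x (z + (0, 1))).d)

/-- The points of the subshift: matching configurations of generated tiles of level `0`. -/
def IsPoint (x : ℤ × ℤ → Tile) : Prop := (∀ z, Generated forb 0 (x z)) ∧ Matches x

/-- A configuration decomposed into blocks: `x` is cut at `o` into the blocks of the parents `y`. -/
def Decomposes (s : ℕ) (x : ℤ × ℤ → Tile) (o : ℤ × ℤ) (y : ℤ × ℤ → Tile) : Prop :=
  ∀ (w : ℤ × ℤ) (i j : ℕ), i < 2 * lvl s → j < 2 * lvl s →
    x (o.1 + 2 * (lvl s : ℤ) * w.1 + i, o.2 + 2 * (lvl s : ℤ) * w.2 + j) =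
      child forb (lvl s) (y w) i j

end Vale.Agent.P196.Full.Tiles
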