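import Vale.Agent.P196.Full.Tiles.Equations.Main

/-!
# P196: every square of four neighbours occurs inside a generated supertile

The lower-left parent of a square determines the square, as the children on a lower or left side
depend only on the colour of that side; and a generated tile has room above it and to its right in
some supertile, as a seed has.
-/

namespace Vale.Agent.P196.Full.Tiles

attribute [local irreducible] K lvl

/-- The lower-left corner child is the same in every tile. -/
theorem child_zero_zero (M : ℕ) (hM : 4 * K ≤ M) (T T' : Tile) :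
    child forb M T 0 0 = child forb M T' 0 0 := by
  have := K_large
  have hh : ∀ (T : Tile) x, x ≤ 1 → fillH forb M T x 0 = fun _ => false := by
    intro T x hx
    funext h
    cases h <;> simp [fillH, show ¬M ≤ K by omega, show ¬M + K ≤ 1 by omega]
  have hv : ∀ (T : Tile) y, y ≤ 1 → fillV forb M T 0 y = fun _ => false := by
    intro T y hy
    funext h
    cases h <;> simp [fillV, show ¬M ≤ K by omega, show ¬M + K ≤ 1 by omega,
      show ¬(0 = M) by omega]
  simp only [child, Nat.zero_add, hh T 0 (by omega), hh T 1 le_rfl, hv T 0 (by omega),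
    hv T 1 le_rfl, hh T' 0 (by omega), hh T' 1 le_rfl, hv T' 0 (by omega), hv T' 1 le_rfl]

/-- A child on the left side is determined by the colour of that side. -/
theorem child_left (M : ℕ) (hM : 4 * K ≤ M) {T T' : Tile} (e : T.l = T'.l) (j : ℕ) :
    child forb M T 0 j = child forb M T' 0 j := by
  have := K_large
  have hs : ∀ b, shown T 0 b = shown T' 0 b := fun b => by simp [shown, Tile.sideBit, e]
  have hh : ∀ x, x ≤ 1 → fillH forb M T x j = fillH forb M T' x j := by
    intro x hx
    funext h
    cases h <;> simp [fillH, hs, e, show x + 1 ≤ M + K by omega, show x ≤ M by omega,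
      show ¬M < x by omega, show ¬M < x + K by omega]
  have hv : ∀ y, fillV forb M T 0 y = fillV forb M T' 0 y := by
    intro y
    funext h
    cases h <;> simp [fillV, show ¬M ≤ K by omega, show ¬M + K ≤ 1 by omega,
      show ¬(0 = M) by omega]
  simp only [child, Nat.zero_add, hh 0 (by omega), hh 1 le_rfl, hv]

theorem fillV_bottom (M : ℕ) (hM : 4 * K ≤ M) {T T' : Tile} (e : T.d = T'.d) (i y : ℕ)
    (hy : y ≤ 1) : fillV forb M T i y = fillV forb M T' i y := by
  have := K_large
  have hs : ∀ b, shown T 2 b = shown T' 2 b := fun b => by simp [shown, Tile.sideBit, e]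
  have h1 : ¬M < y + K := by omega
  have h2 : y + 1 ≤ M + K := by omega
  funext h
  cases h with
  | Mk =>
    by_cases hi : y ≤ i
    · simp only [fillV, if_pos hi, e]
    · simp only [fillV, decide_eq_false (show ¬M + K ≤ i + 1 by omega), Bool.false_and]
  | C => simp [fillV, hs, h2]
  | A => simp [fillV, e, h2]
  | B => simp [fillV, e, h2]
  | _ => simp [fillV, h1]

/-- A child on the bottom side is determined by the colour of that side. -/
theorem child_bottom (M : ℕ) (hM : 4 * K ≤ M) {T T' : Tile} (e : T.d = T'.d) (i : ℕ) :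
    child forb M T i 0 = child forb M T' i 0 := by
  have := K_large
  have hh : ∀ x, fillH forb M T x 0 = fillH forb M T' x 0 := by
    intro x
    funext h
    cases h <;> simp [fillH, show ¬M ≤ K by omega, show ¬M + K ≤ 1 by omega]
  simp only [child, Nat.zero_add, hh, fillV_bottom M hM e i 0 (by omega),
    fillV_bottom M hM e i 1 le_rfl]

/-- The quotient and the rest after a step of at most one. -/
theorem step_div_mod {n i α : ℕ} (hi : i < n) (hα : α < 2) :
    (i + α < n ∧ (i + α) / n = 0 ∧ (i + α) % n = i + α) ∨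
      ((i + α) / n = 1 ∧ (i + α) % n = 0) := by
  by_cases h : i + α < n
  · exact .inl ⟨h, Nat.div_eq_of_lt h, Nat.mod_eq_of_lt h⟩
  · have e : i + α = n := by omega
    exact .inr ⟨by rw [e, Nat.div_self (by omega)], by rw [e, Nat.mod_self]⟩

/-- Squares of children agree as soon as the lower-left parents do. -/
theorem square_congr {M : ℕ} (hM : 4 * K ≤ M) {f g : ℕ → ℕ → Tile}
    (fr : (f 0 0).r = (f 1 0).l) (fu : (f 0 0).u = (f 0 1).d)
    (gr : (g 0 0).r = (g 1 0).l) (gu : (g 0 0).u = (g 0 1).d) (e : f 0 0 = g 0 0)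
    {i j : ℕ} (hi : i < 2 * M) (hj : j < 2 * M) {α β : ℕ} (hα : α < 2) (hβ : β < 2) :
    child forb M (f ((i + α) / (2 * M)) ((j + β) / (2 * M))) ((i + α) % (2 * M))
        ((j + β) % (2 * M)) =
      child forb M (g ((i + α) / (2 * M)) ((j + β) / (2 * M))) ((i + α) % (2 * M))
        ((j + β) % (2 * M)) := by
  rcases step_div_mod hi hα with ⟨-, a1, a2⟩ | ⟨a1, a2⟩ <;>
    rcases step_div_mod hj hβ with ⟨-, b1, b2⟩ | ⟨b1, b2⟩ <;> rw [a1, a2, b1, b2]
  · rw [e]
  · exact child_bottom M hM (by rw [← fu, ← gu, e]) _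
  · exact child_left M hM (by rw [← fr, ← gr, e]) _
  · exact child_zero_zero M hM _ _

theorem add_div_mod_step {n i : ℕ} (hn : 0 < n) :
    ((i + 1) / n = i / n ∧ (i + 1) % n = i % n + 1) ∨
      (i % n = n - 1 ∧ (i + 1) / n = i / n + 1 ∧ (i + 1) % n = 0) := by
  have h := Nat.div_add_mod i n
  have hlt := Nat.mod_lt i hn
  by_cases h1 : i % n + 1 < n
  · have e : i + 1 = (i % n + 1) + n * (i / n) := by omega
    exact .inl ⟨by rw [e, Nat.add_mul_div_left _ _ hn, Nat.div_eq_of_lt h1, zero_add],
      by rw [e, Nat.add_mul_mod_self_left, Nat.mod_eq_of_lt h1]⟩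
  · have e : i + 1 = n * (i / n + 1) := by rw [Nat.mul_add, mul_one]; omega
    exact .inr ⟨by omega, by rw [e, Nat.mul_div_cancel_left _ hn], by rw [e, Nat.mul_mod_right]⟩

theorem two_lvl_pos (s : ℕ) : 0 < 2 * lvl s := by
  have := lvl_ge s
  obtain ⟨hK, -⟩ := K_large
  omega

/-- The descendants of a tile match. -/
theorem desc_matches : ∀ (t s : ℕ) (P : Tile),
    (∀ i j, i + 1 < side s t → j < side s t →
      (desc s t P i j).r = (desc s t P (i + 1) j).l) ∧
    (∀ i j, i < side s t → j + 1 < side s t →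
      (desc s t P i j).u = (desc s t P i (j + 1)).d) := by
  intro t
  induction t with
  | zero => exact fun s P => ⟨fun i j h _ => absurd h (by simp [side]),
      fun i j _ h => absurd h (by simp [side])⟩
  | succ t ih =>
    intro s P
    have hn := two_lvl_pos s
    have hq : ∀ i < 2 * lvl s * side (s + 1) t, i / (2 * lvl s) < side (s + 1) t := fun i hi => by
      rwa [Nat.div_lt_iff_lt_mul hn, mul_comm]
    refine ⟨fun i j hi hj => ?_, fun i j hi hj => ?_⟩
    · simp only [side] at hi hj
      have hI := hq _ hi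
      rcases add_div_mod_step (i := i) hn with ⟨e1, e2⟩ | ⟨h1, e1, e2⟩
      · simp only [desc, e1, e2]
        rfl
      · simp only [desc, e1, e2, h1] at hI ⊢
        exact cross_h (lvl_ge s) ((ih (s + 1) P).1 _ _ hI (hq _ hj)) (Nat.mod_lt _ hn)
    · simp only [side] at hi hj
      have hJ := hq _ hj
      rcases add_div_mod_step (i := j) hn with ⟨e1, e2⟩ | ⟨h1, e1, e2⟩
      · simp only [desc, e1, e2]
        rfl
      · simp only [desc, e1, e2, h1] at hJ ⊢
        exact cross_v (lvl_ge s) ((ih (s + 1) P).2 _ _ (hq _ hi) hJ) (Nat.mod_lt _ hn)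

/-- A generated tile has room above it and to its right in some generated supertile. -/
theorem Generated.interior {n : ℕ} {T : Tile} (h : Generated forb n T) :
    ∃ (t : ℕ) (R : Tile) (a b : ℕ), Generated forb (n + t) R ∧ a + 1 < side n t ∧
      b + 1 < side n t ∧ desc n t R a b = T := by
  induction h with
  | base s =>
    have h6 : 5 + 1 < 2 * lvl s * 1 := by
      obtain ⟨hK, -⟩ := K_large
      have := lvl_ge s
      omega
    refine ⟨1, seed (lvl (s + 1)), 5, 5, .base _, h6, h6, ?_⟩
    simp only [desc, Nat.mod_eq_of_lt (show 5 < 2 * lvl s by omega)]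
    exact child_seed (lvl_ge s) _
  | step s T i j _ hi hj ih =>
    obtain ⟨t, R, a, b, hR, ha, hb, e⟩ := ih
    rw [Nat.succ_add_eq_add_succ] at hR
    have hlt : ∀ a i, a + 1 < side (s + 1) t → i < 2 * lvl s →
        i + 2 * lvl s * a + 1 < side s (t + 1) := by
      intro a i ha hi
      have : 2 * lvl s * (a + 2) ≤ 2 * lvl s * side (s + 1) t := Nat.mul_le_mul_left _ (by omega)
      rw [mul_add] at this
      simp only [side]
      omega
    refine ⟨t + 1, R, i + 2 * lvl s * a, j + 2 * lvl s * b, hR, hlt a i ha hi, hlt b j hb hj, ?_⟩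
    simp only [desc, Nat.add_mul_div_left _ _ (two_lvl_pos s), Nat.add_mul_mod_self_left,
      Nat.div_eq_of_lt hi, Nat.div_eq_of_lt hj, Nat.mod_eq_of_lt hi, Nat.mod_eq_of_lt hj,
      Nat.zero_add, e]

/-- A neighbour of a cell as the cell of a neighbouring block. -/
theorem split_step (n i α : ℕ) (o w z : ℤ) (hz : z = o + (n : ℤ) * w + i) :
    z + α = o + (n : ℤ) * (w + ((i + α) / n : ℕ)) + ((i + α) % n : ℕ) := by
  have : ((i : ℤ) + α) = (n : ℤ) * ((i + α) / n : ℕ) + ((i + α) % n : ℕ) := by
    exact_mod_cast (Nat.div_add_mod (i + α) n).symm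
  linear_combination hz + this

/-- Every square of four neighbours in a hierarchy occurs inside a generated supertile. -/
theorem occursGoal (hG : GeneratedGoal) : OccursGoal := by
  intro H s z
  have hn := two_lvl_pos s
  set n := 2 * lvl s with hnd
  have hcast : (n : ℤ) = 2 * (lvl s : ℤ) := by simp [hnd]
  have hdiv : ∀ o a : ℤ, ∃ (w : ℤ) (i : ℕ), i < n ∧ a = o + (n : ℤ) * w + i := by
    intro o a
    have hpos : (0 : ℤ) < n := by exact_mod_cast hn
    refine ⟨(a - o) / n, ((a - o) % n).toNat, ?_, ?_⟩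
    · have := Int.emod_lt_of_pos (a - o) hpos
      omega
    · rw [Int.toNat_of_nonneg (Int.emod_nonneg _ hpos.ne')]
      have := Int.emod_add_mul_ediv (a - o) n
      linarith
  obtain ⟨w₁, i, hi, e1⟩ := hdiv (H.o s).1 z.1
  obtain ⟨w₂, j, hj, e2⟩ := hdiv (H.o s).2 z.2
  obtain ⟨t, R, a, b, hR, ha, hb, e⟩ := (hG H (s + 1) (w₁, w₂)).interior
  rw [Nat.succ_add_eq_add_succ] at hR
  have hlt : ∀ a i, a + 1 < side (s + 1) t → i < n → i + n * a + 1 < side s (t + 1) := by
    intro a i ha hi
    have : n * (a + 2) ≤ n * side (s + 1) t := Nat.mul_le_mul_left _ (by omega)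
    rw [mul_add] at this
    simp only [side, ← hnd]
    omega
  refine ⟨t + 1, R, i + n * a, j + n * b, hR, hlt a i ha hi, hlt b j hb hj, fun α β hα hβ => ?_⟩
  have hr : (H.x (s + 1) (w₁, w₂)).r = (H.x (s + 1) (w₁ + 1, w₂)).l := by
    simpa using (H.matching (s + 1)).1 (w₁, w₂)
  have hu : (H.x (s + 1) (w₁, w₂)).u = (H.x (s + 1) (w₁, w₂ + 1)).d := by
    simpa using (H.matching (s + 1)).2 (w₁, w₂)
  have hsq := square_congr (lvl_ge s) (f := fun p q => desc (s + 1) t R (a + p) (b + q))
    (g := fun p q => H.x (s + 1) (w₁ + (p : ℤ), w₂ + (q : ℤ)))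
    ((desc_matches t (s + 1) R).1 a b ha (by omega))
    ((desc_matches t (s + 1) R).2 a b (by omega) hb)
    (by simpa using hr) (by simpa using hu) (by simpa using e) hi hj hα hβ
  have hd : ∀ a i α, (i + n * a + α) / n = a + (i + α) / n ∧
      (i + n * a + α) % n = (i + α) % n := by
    intro a i α
    rw [show i + n * a + α = (i + α) + n * a by omega, Nat.add_mul_div_left _ _ hn,
      Nat.add_mul_mod_self_left]
    exact ⟨add_comm _ _, rfl⟩
  simp only [desc, ← hnd, hd]
  refine hsq.trans ((H.dec s (w₁ + (((i + α) / n : ℕ) : ℤ), w₂ + (((j + β) / n : ℕ) : ℤ))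
    ((i + α) % n) ((j + β) % n) (Nat.mod_lt _ hn) (Nat.mod_lt _ hn)).symm.trans ?_)
  congr 1
  refine Prod.ext ?_ ?_ <;> simp only [Prod.fst_add, Prod.snd_add, ← hcast]
  · exact (split_step n i α _ _ _ e1).symm
  · exact (split_step n j β _ _ _ e2).symm

end Vale.Agent.P196.Full.Tiles
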