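import Vale.Agent.P196.Full.Tiles.Defs

/-!
# P196: deleting one ring from a block

Deleting a ring far away from all the relevant coordinates changes neither the kinds of the
colours, nor the order of the values, so signatures of children do not see it.
-/

namespace Vale.Agent.P196.Full.Tiles

set_option linter.unusedSimpArgs false

/-- The value after deleting `c`. -/
def dl (c v : ℕ) : ℕ := if v < c then v else v - 1

/-- A number at distance at least two from `c`. -/
def Far (c x : ℕ) : Prop := x + 2 ≤ c ∨ c + 2 ≤ x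

/-- The coordinate after deleting the ring `c` of a block of half-width `M`. -/
def shr (c M i : ℕ) : ℕ := if i < c then i else if i + c < 2 * M then i - 1 else i - 2

/-- The colour after deleting the ring `c`. -/
def GCol.del (c : ℕ) : GCol → GCol
  | .side z hi v => .side z hi (dl c v)
  | g => g

/-- The tile after deleting the ring `c`. -/
def Tile.del (c : ℕ) (T : Tile) : Tile :=
  ⟨⟨T.l.g.del c, T.l.bit⟩, ⟨T.r.g.del c, T.r.bit⟩, ⟨T.d.g.del c, T.d.bit⟩, ⟨T.u.g.del c, T.u.bit⟩⟩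

theorem GCol.code_del (c : ℕ) (g : GCol) : (g.del c).code = g.code := by
  cases g <;> rfl

theorem GCol.val_del (c : ℕ) (g : GCol) : (g.del c).val = g.val.map (dl c) := by
  cases g <;> rfl

theorem GCol.tagA_del (c : ℕ) (g : GCol) : (g.del c).tagA = g.tagA := by
  cases g <;> rfl

theorem GCol.tagB_del (c : ℕ) (g : GCol) : (g.del c).tagB = g.tagB := by
  cases g <;> rfl

theorem GCol.coord_del (c : ℕ) (g : GCol) (k : Fin 2) : (g.del c).coord k = g.coord k := by
  simp [GCol.coord, GCol.tagA_del, GCol.tagB_del]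

theorem GCol.tr_del (c : ℕ) (g : GCol) : (g.del c).tr = g.tr.del c := by
  cases g <;> rfl

theorem Tile.gs_del (c : ℕ) (T : Tile) (s : Fin 4) : (T.del c).gs s = (T.gs s).del c := by
  fin_cases s <;> rfl

theorem Tile.sideBit_del (c : ℕ) (T : Tile) (s : Fin 4) (t : DI) :
    (T.del c).sideBit s t = T.sideBit s t := by
  have hh : ∀ (x : Col HL) (t : DI), hBit ⟨x.g.del c, x.bit⟩ t = hBit x t := fun x t => by
    rcases t with k | h | h <;> simp [hBit, GCol.code_del]
  have hv : ∀ (x : Col VL) (t : DI), vBit ⟨x.g.del c, x.bit⟩ t = vBit x t := fun x t => by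
    rcases t with k | h | h <;> simp [vBit, GCol.code_del]
  simp only [Tile.sideBit, Tile.del, hh, hv]

theorem Tile.tagCell_del (c : ℕ) (T : Tile) : (T.del c).tagCell = T.tagCell := by
  unfold Tile.tagCell Tile.del
  cases T.l.g <;> rfl

theorem shown_del (c : ℕ) (T : Tile) (s : Fin 4) (b : ℕ) : shown (T.del c) s b = shown T s b := by
  simp [shown, Tile.sideBit_del]

/-! ### Scans -/

theorem dl_lt {c x y : ℕ} (hx : Far c x) (hy : Far c y) : dl c x < dl c y ↔ x < y := by
  unfold dl Far at *; split_ifs <;> omega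

theorem dl_le {c x y : ℕ} (hx : Far c x) (hy : Far c y) : dl c x ≤ dl c y ↔ x ≤ y := by
  unfold dl Far at *; split_ifs <;> omega

theorem dl_inj {c x y : ℕ} (hx : Far c x) (hy : Far c y) : dl c x = dl c y ↔ x = y := by
  unfold dl Far at *; split_ifs <;> omega

theorem dl_eq_zero {c x : ℕ} (hx : Far c x) (hc : 0 < c) : dl c x = 0 ↔ x = 0 := by
  unfold dl Far at *; split_ifs <;> omega

theorem map_dl_eq {c v : ℕ} {o : Option ℕ} (hv : Far c v) (ho : ∀ w, o = some w → Far c w) :
    o.map (dl c) = some (dl c v) ↔ o = some v := by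
  cases o with
  | none => simp
  | some w => simp [dl_inj (ho w rfl) hv]

theorem scanBit_del {c m j : ℕ} {v : Fin 4 → Option ℕ} (hv : ∀ s w, v s = some w → Far c w)
    (hj : Far c j) (hc : 0 < c) (hm : c + 2 ≤ m) (i : Fin 17) :
    scanBit (fun s => (v s).map (dl c)) (m - 1) (dl c j) i = scanBit v m j i := by
  have hmm : Far c m := Or.inr hm
  have e : m - 1 = dl c m := by unfold dl; split_ifs <;> omega
  have h1 : ∀ s, ((v s).map (dl c)).any (fun w => decide (dl c j ≤ w)) =
      (v s).any (fun w => decide (j ≤ w)) := fun s => by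
    cases h : v s with
    | none => simp
    | some w => simp [dl_le hj (hv s w h)]
  have h2 : ∀ s s', (((v s).map (dl c)).any fun w =>
      ((v s').map (dl c)).any fun w' => decide (w < w')) =
      ((v s).any fun w => (v s').any fun w' => decide (w < w')) := fun s s' => by
    cases h : v s with
    | none => simp
    | some w =>
      cases h' : v s' with
      | none => simp
      | some w' => simp [dl_lt (hv s w h) (hv s' w' h')]
  have h3 : ∀ s, ((v s).map (dl c) = some (dl c j)) ↔ v s = some j := fun s =>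
    map_dl_eq hj (hv s)
  have h4 : ∀ s, ((v s).map (dl c) = some 0) ↔ v s = some 0 := fun s => by
    cases h : v s with
    | none => simp
    | some w => simp [dl_eq_zero (hv s w h) hc]
  have h5 : ∀ s, ((v s).map (dl c) = some (m - 1)) ↔ v s = some m := fun s => by
    rw [e]; exact map_dl_eq hmm (hv s)
  simp only [scanBit, h1, h2, h3, h4, h5, dl_eq_zero hj hc]

theorem sig_del {c M : ℕ} {T : Tile} (f : (Sg → Bool) → Bool)
    (hv : ∀ s w, (T.gs s).val = some w → Far c w) (hc : 2 ≤ c) (hm : c + 2 ≤ M - K) (q : Sg) :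
    sig f (M - 1) (T.del c) q = sig f M T q := by
  rcases q with ⟨s, t, k⟩ | i | ⟨k, p, i⟩ | i
  · exact Tile.sideBit_del c T s t
  · have h := scanBit_del (v := fun s => (T.gs s).val) (j := 0) hv (Or.inl hc) (by omega) hm i
    rw [show dl c 0 = 0 by simp [dl], show M - K - 1 = M - 1 - K by omega] at h
    simpa [sig, Tile.gs_del, GCol.val_del] using h
  · simp [sig, Tile.gs_del, GCol.coord_del]
  · simp [sig, Tile.tagCell_del]

/-! ### Geometry -/

theorem shr_succ {c M i : ℕ} (h1 : Far c i) (h2 : Far c (2 * M - i)) (hi : i < 2 * M) :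
    shr c M (i + 1) = shr c M i + 1 := by
  unfold shr Far at *; split_ifs <;> omega

theorem shr_lt {c M i : ℕ} (hc : c + 2 ≤ M) (h2 : Far c (2 * M - i)) (hi : i < 2 * M) :
    shr c M i < 2 * (M - 1) := by
  unfold shr Far at *; split_ifs <;> omega

/-- The relation between a coordinate and the same coordinate after deleting a ring. -/
def Shifted (c N i x : ℕ) : Prop :=
  i < c ∧ x = i ∨ c < i ∧ i + c < N ∧ x + 1 = i ∨ N < i + c ∧ x + 2 = i

theorem minA_iff {c M i j x y : ℕ} (hx : Shifted c (2 * M) i x) (hy : Shifted c (2 * M - 1) j y)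
    (hil : i ≤ 2 * M) (hjl : j < 2 * M) (hc : c + 2 ≤ M) :
    y < min (min x (2 * (M - 1) - x)) (2 * (M - 1) - 1 - y) ↔
      j < min (min i (2 * M - i)) (2 * M - 1 - j) := by
  simp only [lt_min_iff]
  rcases hx with h | h | h <;> rcases hy with h' | h' | h' <;> omega

theorem minB_iff {c M i j x y : ℕ} (hx : Shifted c (2 * M) i x) (hy : Shifted c (2 * M - 1) j y)
    (hil : i ≤ 2 * M) (hjl : j < 2 * M) (hc : c + 2 ≤ M) :
    2 * (M - 1) - 1 - y < min x (2 * (M - 1) - x) ↔
      2 * M - 1 - j < min i (2 * M - i) := by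
  simp only [lt_min_iff]
  rcases hx with h | h | h <;> rcases hy with h' | h' | h' <;> omega

theorem central_iff {c M R i j x y : ℕ} (hx : Shifted c (2 * M) i x)
    (hy : Shifted c (2 * M - 1) j y) (hil : i ≤ 2 * M) (hjl : j < 2 * M) (hc : c + R + 2 ≤ M) :
    (M - 1 ≤ x + R ∧ x ≤ M - 1 + R ∧ M - 1 ≤ y + R ∧ y < M - 1 + R) ↔
      (M ≤ i + R ∧ i ≤ M + R ∧ M ≤ j + R ∧ j < M + R) := by
  rcases hx with h | h | h <;> rcases hy with h' | h' | h' <;> omega

theorem central_coord {c M R i x : ℕ} (hx : Shifted c (2 * M) i x) (hc : c + R + 2 ≤ M)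
    (h1 : M ≤ i + R) (h2 : i ≤ M + R) : x + 1 = i := by
  rcases hx with h | h | h <;> omega

theorem central_coord' {c M R j y : ℕ} (hy : Shifted c (2 * M - 1) j y) (hc : c + R + 2 ≤ M)
    (h1 : M ≤ j + R) (h2 : j < M + R) : y + 1 = j := by
  rcases hy with h | h | h <;> omega

theorem ends_iff {c M i x : ℕ} (hx : Shifted c (2 * M) i x) (hil : i ≤ 2 * M) (hc : 2 ≤ c)
    (hcM : c + 2 ≤ M) : ((x = 0 ∨ x = 2 * (M - 1)) ↔ (i = 0 ∨ i = 2 * M)) ∧
      (x < M - 1 ↔ i < M) ∧ (M - 1 < x ↔ M < i) := by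
  rcases hx with h | h | h <;> refine ⟨?_, ?_, ?_⟩ <;> omega

theorem rows_iff {c M j y : ℕ} (hy : Shifted c (2 * M - 1) j y) (hjl : j < 2 * M) (hc : 2 ≤ c)
    (hcM : c + 2 ≤ M) : (y = 0 ↔ j = 0) ∧ (y + 1 = 2 * (M - 1) ↔ j + 1 = 2 * M) ∧
      (y < M - 1 ↔ j < M) ∧ (M - 1 ≤ y ↔ M ≤ j) := by
  rcases hy with h | h | h <;> refine ⟨?_, ?_, ?_, ?_⟩ <;> omega

theorem side_x {c M i x : ℕ} (hx : Shifted c (2 * M) i x) (hil : i ≤ 2 * M) (hcM : c + 2 ≤ M) :
    (i < M → x = dl c i) ∧ (M ≤ i → 2 * (M - 1) - x = dl c (2 * M - i)) := by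
  unfold dl
  rcases hx with h | h | h <;> refine ⟨?_, ?_⟩ <;> intro h0 <;> split_ifs <;> omega

theorem side_y {c M j y : ℕ} (hy : Shifted c (2 * M - 1) j y) (hjl : j < 2 * M) (hcM : c + 2 ≤ M) :
    (j < M → y = dl c j) ∧ (M ≤ j → 2 * (M - 1) - 1 - y = dl c (2 * M - 1 - j)) := by
  unfold dl
  rcases hy with h | h | h <;> refine ⟨?_, ?_⟩ <;> intro h0 <;> split_ifs <;> omega

theorem geoH_del {c M i j : ℕ} (hc : 2 ≤ c) (hM : c + K + 2 ≤ M)
    (hi : Far c i) (hi' : Far c (2 * M - i)) (hj : Far c j) (hj' : Far c (2 * M - 1 - j))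
    (hil : i ≤ 2 * M) (hjl : j < 2 * M) :
    geoH (M - 1) (shr c M i) (shr c M j) = (geoH M i j).del c := by
  unfold Far at hi hi' hj hj'
  obtain ⟨x, hx, hxd⟩ : ∃ x, shr c M i = x ∧ Shifted c (2 * M) i x :=
    ⟨_, rfl, by unfold Shifted shr; split_ifs <;> omega⟩
  obtain ⟨y, hy, hyd⟩ : ∃ y, shr c M j = y ∧ Shifted c (2 * M - 1) j y :=
    ⟨_, rfl, by unfold Shifted shr; split_ifs <;> omega⟩
  have q6 := minA_iff hxd hyd hil hjl (by omega)
  have q7 := minB_iff hxd hyd hil hjl (by omega)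
  rw [hx, hy]
  obtain ⟨q1, q8, q9⟩ := ends_iff hxd hil hc (by omega)
  obtain ⟨q2, q3, q4, q10⟩ := rows_iff hyd hjl hc (by omega)
  have q5 := central_iff hxd hyd hil hjl hM
  unfold geoH
  simp only [q1, q2, q3, q4, q5, q6, q7, q8, q9, q10]
  by_cases p1 : i = 0 ∨ i = 2 * M
  · rw [if_pos p1, if_pos p1]; rfl
  rw [if_neg p1, if_neg p1]
  by_cases p5 : M ≤ i + K ∧ i ≤ M + K ∧ M ≤ j + K ∧ j < M + K
  · rw [if_pos p5, if_pos p5]
    have e1 := central_coord hxd hM p5.1 p5.2.1
    have e2 := central_coord' hyd hM p5.2.2.1 p5.2.2.2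
    simp only [GCol.del, GCol.tag.injEq]
    omega
  rw [if_neg p5, if_neg p5]
  obtain ⟨sx1, sx2⟩ := side_x hxd hil (by omega)
  obtain ⟨sy1, sy2⟩ := side_y hyd hjl (by omega)
  by_cases p6 : j < min (min i (2 * M - i)) (2 * M - 1 - j)
  · rw [if_pos p6, if_pos p6, sy1 (by simp only [lt_min_iff] at p6; omega)]
    rfl
  rw [if_neg p6, if_neg p6]
  by_cases p7 : 2 * M - 1 - j < min i (2 * M - i)
  · rw [if_pos p7, if_pos p7, sy2 (by
      simp only [lt_min_iff] at p6 p7
      omega)]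
    rfl
  rw [if_neg p7, if_neg p7]
  by_cases p8 : i < M
  · rw [if_pos p8, if_pos p8, sx1 p8]
    rfl
  · rw [if_neg p8, if_neg p8, sx2 (by omega)]
    rfl

theorem geoH_val {M i j w : ℕ} (h : (geoH M i j).val = some w) :
    w = j ∨ w = 2 * M - 1 - j ∨ w = i ∨ w = 2 * M - i := by
  unfold geoH at h
  split_ifs at h <;> simp_all [GCol.val]

theorem geoV_val {M i j w : ℕ} (h : (geoV M i j).val = some w) :
    w = i ∨ w = 2 * M - 1 - i ∨ w = j ∨ w = 2 * M - j := by
  refine geoH_val (M := M) (i := j) (j := i) ?_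
  revert h
  unfold geoV
  cases geoH M j i <;> simp [GCol.tr, GCol.val]

end Vale.Agent.P196.Full.Tiles
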