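import Vale.Agent.P196.Full.Tiles.Spec
import Vale.Agent.P196.Full.Defs

/-!
# P196: the subshift of the tile tower
-/

namespace Vale.Agent.P196.Full.Tiles

open Set

theorem one_le_K : 1 ≤ K := by
  unfold K
  generalize 2 ^ nS = P
  omega

theorem six_le_two_mul_lvl (s : ℕ) : 6 ≤ 2 * lvl s := by
  have := one_le_K
  unfold lvl M0
  generalize K = k at *
  omega

attribute [local irreducible] K lvl

theorem Generated.hasGeom {F : (Sg → Bool) → Bool} {s : ℕ} {T : Tile} (h : Generated F s T) :
    HasGeom s T := by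
  cases h with
  | base => exact ⟨5, 5, by have := six_le_two_mul_lvl s; omega,
      by have := six_le_two_mul_lvl s; omega, rfl, rfl, rfl, rfl⟩
  | step _ P i j hP hi hj => exact ⟨i, j, hi, hj, rfl, rfl, rfl, rfl⟩

/-- The generated tiles of level `0`. -/
abbrev Base : Type := {T : Tile // Generated forb 0 T}

/-- A tile as the cell of its geometry and its bits. -/
noncomputable def baseCode (p : Fin (2 * lvl 0) × Fin (2 * lvl 0) × (HL → Bool) × (HL → Bool) ×
    (VL → Bool) × (VL → Bool)) : Tile where
  l := ⟨geoH (lvl 0) p.1 p.2.1, p.2.2.1⟩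
  r := ⟨geoH (lvl 0) (p.1 + 1) p.2.1, p.2.2.2.1⟩
  d := ⟨geoV (lvl 0) p.1 p.2.1, p.2.2.2.2.1⟩
  u := ⟨geoV (lvl 0) p.1 (p.2.1 + 1), p.2.2.2.2.2⟩

instance : Finite Base := by
  have : {T : Tile | Generated forb 0 T}.Finite := by
    refine (Set.finite_range baseCode).subset ?_
    rintro T hT
    obtain ⟨i, j, hi, hj, h1, h2, h3, h4⟩ := Generated.hasGeom hT
    refine ⟨(⟨i, hi⟩, ⟨j, hj⟩, T.l.bit, T.r.bit, T.d.bit, T.u.bit), ?_⟩
    obtain ⟨⟨lg, lb⟩, ⟨rg, rb⟩, ⟨dg, db⟩, ⟨ug, ub⟩⟩ := T
    simp only at h1 h2 h3 h4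
    subst h1; subst h2; subst h3; subst h4
    rfl
  exact this.to_subtype

instance : TopologicalSpace Base := ⊥

instance : DiscreteTopology Base := ⟨rfl⟩

/-- The subshift. -/
abbrev Pts : Type := {x : ℤ × ℤ → Base // Matches fun z => (x z).1}

theorem isClosed_pts : IsClosed {x : ℤ × ℤ → Base | Matches fun z => (x z).1} := by
  have key : ∀ (a b : ℤ × ℤ) (R : Base → Base → Prop),
      IsClosed {x : ℤ × ℤ → Base | R (x a) (x b)} := fun a b R =>
    IsClosed.preimage (f := fun x : ℤ × ℤ → Base => (x a, x b))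
      ((continuous_apply a).prodMk (continuous_apply b)) (t := {p : Base × Base | R p.1 p.2})
      (isClosed_discrete _)
  simp only [Matches, Set.ofPred_and, Set.ofPred_forall]
  exact (isClosed_iInter fun z => key z _ fun p q => p.1.r = q.1.l).inter
    (isClosed_iInter fun z => key z _ fun p q => p.1.u = q.1.d)

instance : CompactSpace Pts := isCompact_iff_compactSpace.1 isClosed_pts.isCompact

/-- The shift: a point moved by `v` shows at `z` what it showed at `z + v`. -/
def shiftFun (v : ℤ × ℤ) (x : Pts) : Pts :=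
  ⟨fun z => x.1 (z + v), by
    refine ⟨fun z => ?_, fun z => ?_⟩
    · have := x.2.1 (z + v)
      simpa [add_assoc, add_comm, add_left_comm] using this
    · have := x.2.2 (z + v)
      simpa [add_assoc, add_comm, add_left_comm] using this⟩

theorem shiftFun_zero (x : Pts) : shiftFun 0 x = x := by
  refine Subtype.ext (funext fun z => ?_); simp [shiftFun]

theorem shiftFun_add (u v : ℤ × ℤ) (x : Pts) :
    shiftFun (u + v) x = shiftFun u (shiftFun v x) := by
  refine Subtype.ext (funext fun z => ?_); simp [shiftFun, add_assoc]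

theorem continuous_shiftFun (v : ℤ × ℤ) : Continuous (shiftFun v) :=
  Continuous.subtype_mk (f := fun (x : Pts) (z : ℤ × ℤ) => x.1 (z + v))
    (continuous_pi fun z => (continuous_apply (z + v)).comp continuous_subtype_val) _

/-- The action of the lattice on the subshift. -/
def sys : Sys Pts where
  sh v :=
    { toFun := shiftFun v
      invFun := shiftFun (-v)
      left_inv := fun x => by rw [← shiftFun_add, neg_add_cancel, shiftFun_zero]
      right_inv := fun x => by rw [← shiftFun_add, add_neg_cancel, shiftFun_zero]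
      continuous_toFun := continuous_shiftFun v
      continuous_invFun := continuous_shiftFun (-v) }
  sh_zero := shiftFun_zero
  sh_add := shiftFun_add

/-- The configuration of tiles of a point. -/
def tilesOf (x : Pts) : ℤ × ℤ → Tile := fun z => (x.1 z).1

theorem tilesOf_sh (v : ℤ × ℤ) (x : Pts) (z : ℤ × ℤ) :
    tilesOf (sys.sh v x) z = tilesOf x (z + v) := rfl

theorem ok_tilesOf (x : Pts) (z : ℤ × ℤ) : OK 0 (tilesOf x z) := (x.1 z).2

end Vale.Agent.P196.Full.Tiles
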